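import Mathlib

/-!
Signed initial sums of vector sequences: forcing constructions.

`Forces v N T` says that every signing of `v 0, ..., v (N-1)` has an initial sum
whose squared norm is at least `T`.
-/

namespace Vale.Agent.Lib.P262

open Finset

/-- Put `e` in front of the sequence `v`. -/
def prepend {α : Type*} (e : α) (v : ℕ → α) : ℕ → α
  | 0 => e
  | (i + 1) => v i

theorem prepend_zero {α : Type*} (e : α) (v : ℕ → α) : prepend e v 0 = e := rfl

theorem prepend_succ {α : Type*} (e : α) (v : ℕ → α) (i : ℕ) : prepend e v (i + 1) = v i := rfl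

theorem sign_abs {s : ℝ} (h : s = 1 ∨ s = -1) : |s| = 1 := by
  rcases h with h | h <;> rw [h] <;> simp

theorem sign_sq {s : ℝ} (h : s = 1 ∨ s = -1) : s * s = 1 := by
  rcases h with h | h <;> rw [h] <;> norm_num

variable {E : Type*} [NormedAddCommGroup E] [InnerProductSpace ℝ E]

/-- Every signing of the first `N` terms of `v` has an initial sum of squared norm `≥ T`. -/
def Forces (v : ℕ → E) (N : ℕ) (T : ℝ) : Prop :=
  ∀ ε : ℕ → ℝ, (∀ i, ε i = 1 ∨ ε i = -1) →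
    ∃ k, k ≤ N ∧ T ≤ ‖∑ i ∈ range k, ε i • v i‖ ^ 2

/-- A unit vector orthogonal to all terms raises the forced value by one. -/
theorem forces_prepend {e : E} {v : ℕ → E} {N : ℕ} {T : ℝ} (he : ‖e‖ = 1)
    (horth : ∀ i, inner ℝ e (v i) = 0) (h : Forces v N T) :
    Forces (prepend e v) (N + 1) (T + 1) := by
  intro ε hε
  obtain ⟨k, hk, hT⟩ := h (fun i => ε (i + 1)) (fun i => hε (i + 1))
  refine ⟨k + 1, by omega, ?_⟩
  rw [Finset.sum_range_succ']
  simp only [prepend_zero, prepend_succ]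
  have h1 : inner ℝ (∑ i ∈ range k, ε (i + 1) • v i) (ε 0 • e) = 0 := by
    rw [sum_inner]
    apply Finset.sum_eq_zero
    intro i _
    rw [inner_smul_left, inner_smul_right, real_inner_comm, horth]
    simp
  rw [norm_add_sq_real, h1, norm_smul, he, Real.norm_eq_abs, sign_abs (hε 0)]
  linarith

/-- The planar gadget in coordinates: from a state `(α, β)` of squared norm `x ≥ 1`,
`m + 1` unit vectors force squared norm `x + 2 - 2^(-m)`. -/
theorem spine_coords (m : ℕ) : ∀ α β : ℝ, 1 ≤ α ^ 2 + β ^ 2 →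
    ∃ p q : ℕ → ℝ, (∀ i, p i ^ 2 + q i ^ 2 = 1) ∧
      ∀ ε : ℕ → ℝ, (∀ i, ε i = 1 ∨ ε i = -1) →
        ∃ k, k ≤ m + 1 ∧ α ^ 2 + β ^ 2 + 2 - (1 / 2 : ℝ) ^ m ≤
          (α + ∑ i ∈ range k, ε i * p i) ^ 2 + (β + ∑ i ∈ range k, ε i * q i) ^ 2 := by
  induction m with
  | zero =>
    intro α β hx
    obtain ⟨x, hxdef⟩ : ∃ x : ℝ, x = α ^ 2 + β ^ 2 := ⟨_, rfl⟩
    rw [← hxdef] at hx
    have hxpos : 0 < x := by linarith
    obtain ⟨s, hsdef⟩ : ∃ s : ℝ, s = Real.sqrt x := ⟨_, rfl⟩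
    have hsq : s ^ 2 = x := by rw [hsdef]; exact Real.sq_sqrt hxpos.le
    have hsne : s ≠ 0 := by
      intro h0; rw [h0] at hsq; nlinarith
    refine ⟨fun _ => -β / s, fun _ => α / s, ?_, ?_⟩
    · intro i
      show (-β / s) ^ 2 + (α / s) ^ 2 = 1
      rw [div_pow, div_pow, neg_sq, ← add_div, hsq, add_comm, ← hxdef, div_self hxpos.ne']
    · intro ε hε
      refine ⟨1, le_refl _, ?_⟩
      simp only [Finset.sum_range_one, pow_zero]
      have h1 : ε 0 * ε 0 = 1 := sign_sq (hε 0)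
      have h2 : (α + ε 0 * (-β / s)) ^ 2 + (β + ε 0 * (α / s)) ^ 2
          = (α ^ 2 + β ^ 2) + (ε 0 * ε 0) * ((α ^ 2 + β ^ 2) / s ^ 2) := by
        field_simp
        ring
      rw [h2, h1, ← hxdef, hsq, div_self hxpos.ne']
      linarith
  | succ m ih =>
    intro α β hx
    obtain ⟨x, hxdef⟩ : ∃ x : ℝ, x = α ^ 2 + β ^ 2 := ⟨_, rfl⟩
    rw [← hxdef] at hx
    have hxpos : 0 < x := by linarith
    obtain ⟨c, hcdef⟩ : ∃ c : ℝ, c = (1 - (1 / 2 : ℝ) ^ (m + 1)) / 2 := ⟨_, rfl⟩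
    have hpow_pos : 0 < (1 / 2 : ℝ) ^ (m + 1) := by positivity
    have hpow_le : (1 / 2 : ℝ) ^ (m + 1) ≤ 1 := pow_le_one₀ (by norm_num) (by norm_num)
    have hc0 : 0 ≤ c := by rw [hcdef]; linarith
    have hc1 : c ≤ 1 / 2 := by rw [hcdef]; linarith
    have hcx : c ^ 2 ≤ x := by nlinarith
    obtain ⟨r, hrdef⟩ : ∃ r : ℝ, r = Real.sqrt (x - c ^ 2) := ⟨_, rfl⟩
    have hr2 : r ^ 2 = x - c ^ 2 := by rw [hrdef]; exact Real.sq_sqrt (by linarith)
    obtain ⟨p0, hp0⟩ : ∃ p0 : ℝ, p0 = (c * α - r * β) / x := ⟨_, rfl⟩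
    obtain ⟨q0, hq0⟩ : ∃ q0 : ℝ, q0 = (c * β + r * α) / x := ⟨_, rfl⟩
    have hnum : (c * α - r * β) ^ 2 + (c * β + r * α) ^ 2 = x ^ 2 := by
      have : (c * α - r * β) ^ 2 + (c * β + r * α) ^ 2 = (c ^ 2 + r ^ 2) * (α ^ 2 + β ^ 2) := by
        ring
      rw [this, hr2, ← hxdef]; ring
    have hunit : p0 ^ 2 + q0 ^ 2 = 1 := by
      rw [hp0, hq0, div_pow, div_pow, ← add_div, hnum, div_self (by positivity)]
    have hinner : α * p0 + β * q0 = c := by
      have : α * ((c * α - r * β) / x) + β * ((c * β + r * α) / x)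
          = c * ((α ^ 2 + β ^ 2) / x) := by ring
      rw [hp0, hq0, this, ← hxdef, div_self hxpos.ne', mul_one]
    have hx'' : (α - p0) ^ 2 + (β - q0) ^ 2 = x + 1 - 2 * c := by
      have : (α - p0) ^ 2 + (β - q0) ^ 2
          = (α ^ 2 + β ^ 2) + (p0 ^ 2 + q0 ^ 2) - 2 * (α * p0 + β * q0) := by ring
      rw [this, hunit, hinner, ← hxdef]
    have hx' : 1 ≤ (α - p0) ^ 2 + (β - q0) ^ 2 := by
      rw [hx'', hcdef]; linarith
    obtain ⟨p', q', hunit', hforce⟩ := ih (α - p0) (β - q0) hx'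
    refine ⟨prepend p0 p', prepend q0 q', ?_, ?_⟩
    · intro i
      cases i with
      | zero => exact hunit
      | succ i => exact hunit' i
    · intro ε hε
      rw [← hxdef]
      rcases hε 0 with h0 | h0
      · refine ⟨1, by omega, ?_⟩
        simp only [Finset.sum_range_one, h0, one_mul, prepend_zero]
        have : (α + p0) ^ 2 + (β + q0) ^ 2
            = (α ^ 2 + β ^ 2) + (p0 ^ 2 + q0 ^ 2) + 2 * (α * p0 + β * q0) := by ring
        rw [this, hunit, hinner, ← hxdef, hcdef]; linarith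
      · obtain ⟨k, hk, hT⟩ := hforce (fun i => ε (i + 1)) (fun i => hε (i + 1))
        refine ⟨k + 1, by omega, ?_⟩
        rw [Finset.sum_range_succ', Finset.sum_range_succ']
        simp only [h0, prepend_zero, prepend_succ]
        have e1 : α + (∑ i ∈ range k, ε (i + 1) * p' i + -1 * p0)
            = (α - p0) + ∑ i ∈ range k, ε (i + 1) * p' i := by ring
        have e2 : β + (∑ i ∈ range k, ε (i + 1) * q' i + -1 * q0)
            = (β - q0) + ∑ i ∈ range k, ε (i + 1) * q' i := by ring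
        rw [e1, e2]
        have hpow : (1 / 2 : ℝ) ^ (m + 1) = (1 / 2 : ℝ) ^ m / 2 := by rw [pow_succ]; ring
        calc x + 2 - (1 / 2 : ℝ) ^ (m + 1)
            = (α - p0) ^ 2 + (β - q0) ^ 2 + 2 - (1 / 2 : ℝ) ^ m := by
              rw [hx'', hcdef, hpow]; ring
          _ ≤ _ := hT

/-- Squared norm of a combination of two orthonormal vectors. -/
theorem norm_sq_comb {a b : E} (ha : ‖a‖ = 1) (hb : ‖b‖ = 1) (hab : inner ℝ a b = 0) (x y : ℝ) :
    ‖x • a + y • b‖ ^ 2 = x ^ 2 + y ^ 2 := by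
  rw [norm_add_sq_real, inner_smul_left, inner_smul_right, hab, norm_smul, norm_smul, ha, hb]
  simp only [Real.norm_eq_abs, mul_one, mul_zero]
  rw [sq_abs, sq_abs]; simp

/-- The planar gadget: in the plane spanned by orthonormal `a`, `b`, there are `m + 2`
unit vectors forcing squared norm `3 - 2^(-m)`. -/
theorem planar_forces {a b : E} (ha : ‖a‖ = 1) (hb : ‖b‖ = 1) (hab : inner ℝ a b = 0) (m : ℕ) :
    ∃ p q : ℕ → ℝ, (∀ i, p i ^ 2 + q i ^ 2 = 1) ∧
      Forces (prepend a (fun i => p i • a + q i • b)) (m + 2) (3 - (1 / 2 : ℝ) ^ m) := by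
  obtain ⟨p, q, hunit, hforce⟩ := spine_coords m 1 0 (by norm_num)
  refine ⟨p, q, hunit, ?_⟩
  intro ε hε
  obtain ⟨s, hs⟩ : ∃ s : ℝ, s = ε 0 := ⟨_, rfl⟩
  have hss : s * s = 1 := by rw [hs]; exact sign_sq (hε 0)
  have hε' : ∀ i, s * ε (i + 1) = 1 ∨ s * ε (i + 1) = -1 := by
    intro i
    rcases hε 0 with h0 | h0 <;> rcases hε (i + 1) with h1 | h1 <;> simp [hs, h0, h1]
  obtain ⟨k, hk, hT⟩ := hforce (fun i => s * ε (i + 1)) hε'
  refine ⟨k + 1, by omega, ?_⟩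
  rw [Finset.sum_range_succ']
  simp only [prepend_zero, prepend_succ]
  obtain ⟨A, hA⟩ : ∃ A : ℝ, A = ∑ i ∈ range k, (s * ε (i + 1)) * p i := ⟨_, rfl⟩
  obtain ⟨B, hB⟩ : ∃ B : ℝ, B = ∑ i ∈ range k, (s * ε (i + 1)) * q i := ⟨_, rfl⟩
  rw [← hA, ← hB] at hT
  have hsum : ∑ i ∈ range k, ε (i + 1) • (p i • a + q i • b) + ε 0 • a
      = (s * (1 + A)) • a + (s * B) • b := by
    have h1 : ∀ i, ε (i + 1) • (p i • a + q i • b)
        = (s * ((s * ε (i + 1)) * p i)) • a + (s * ((s * ε (i + 1)) * q i)) • b := by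
      intro i
      have e1 : s * ((s * ε (i + 1)) * p i) = (s * s) * (ε (i + 1) * p i) := by ring
      have e2 : s * ((s * ε (i + 1)) * q i) = (s * s) * (ε (i + 1) * q i) := by ring
      rw [e1, e2, hss, one_mul, one_mul, smul_add, smul_smul, smul_smul]
    simp_rw [h1]
    rw [Finset.sum_add_distrib, ← Finset.sum_smul, ← Finset.sum_smul, ← Finset.mul_sum,
      ← Finset.mul_sum, ← hA, ← hB, ← hs]
    rw [mul_add, mul_one, add_smul]
    abel
  rw [hsum, norm_sq_comb ha hb hab]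
  have : (s * (1 + A)) ^ 2 + (s * B) ^ 2 = (s * s) * ((1 + A) ^ 2 + (0 + B) ^ 2) := by ring
  rw [this, hss, one_mul]
  have h3 : (1 : ℝ) ^ 2 + 0 ^ 2 + 2 - (1 / 2 : ℝ) ^ m = 3 - (1 / 2 : ℝ) ^ m := by ring
  rw [← h3]
  exact hT

end Vale.Agent.Lib.P262
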