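import Vale.Agent.Lib.P262.Exits
import Vale.Agent.Lib.P262.Spine

/-!
From `Exits` on a list of vectors to `Forces` on the sequence of its entries.
-/

namespace Vale.Agent.Lib.P262

open Finset

variable {E : Type*} [NormedAddCommGroup E] [InnerProductSpace ℝ E]

/-- From an arbitrary starting position `a`: if every signing of `l` from `a` reaches `P` after
an initial segment, then for every sign sequence some initial signed sum of the entries of `l`,
added to `a`, satisfies `P`. -/
theorem bridge_exits_sum (P : E → Prop) : ∀ (l : List E) (a : E), Exits P a l →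
    ∀ ε : ℕ → ℝ, (∀ i, ε i = 1 ∨ ε i = -1) →
      ∃ k, k ≤ l.length ∧ P (a + ∑ i ∈ range k, ε i • l.getD i 0) := by
  intro l
  induction l with
  | nil =>
    intro a h ε _
    refine ⟨0, le_rfl, ?_⟩
    rw [Finset.sum_range_zero, add_zero]
    exact h
  | cons v l ih =>
    intro a h ε hε
    rcases h with h | ⟨h1, h2⟩
    · refine ⟨0, Nat.zero_le _, ?_⟩
      rw [Finset.sum_range_zero, add_zero]
      exact h
    · rcases hε 0 with h0 | h0
      · obtain ⟨k, hk, hP⟩ := ih (a + v) h1 (fun i => ε (i + 1)) (fun i => hε (i + 1))
        refine ⟨k + 1, ?_, ?_⟩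
        · rw [List.length_cons]
          omega
        · rw [Finset.sum_range_succ']
          simp only [List.getD_cons_succ, List.getD_cons_zero, h0, one_smul]
          have e : a + (∑ i ∈ range k, ε (i + 1) • l.getD i 0 + v)
              = a + v + ∑ i ∈ range k, ε (i + 1) • l.getD i 0 := by abel
          rw [e]
          exact hP
      · obtain ⟨k, hk, hP⟩ := ih (a - v) h2 (fun i => ε (i + 1)) (fun i => hε (i + 1))
        refine ⟨k + 1, ?_, ?_⟩
        · rw [List.length_cons]
          omega
        · rw [Finset.sum_range_succ']
          simp only [List.getD_cons_succ, List.getD_cons_zero, h0, neg_smul, one_smul]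
          have e : a + (∑ i ∈ range k, ε (i + 1) • l.getD i 0 + -v)
              = a - v + ∑ i ∈ range k, ε (i + 1) • l.getD i 0 := by abel
          rw [e]
          exact hP

/-- If every signing of `l` from `0` reaches squared norm at least `T` after an initial segment,
then the sequence of the entries of `l` forces `T`. -/
theorem forces_of_exits (T : ℝ) (l : List E) (h : Exits (fun b : E => T ≤ ‖b‖ ^ 2) 0 l) :
    Forces (fun i => l.getD i 0) l.length T := by
  intro ε hε
  obtain ⟨k, hk, hP⟩ := bridge_exits_sum (fun b : E => T ≤ ‖b‖ ^ 2) l 0 h ε hε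
  refine ⟨k, hk, ?_⟩
  rw [zero_add] at hP
  exact hP

end Vale.Agent.Lib.P262
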