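import Vale.Agent.Lib.P262.Exits

/-!
From boards on the integer lattice (one for each sub-cell of the unit cell) to planar universal
forcing for real starting points.
-/

namespace Vale.Agent.Lib.P262

/-- Least value of `M * |x + t|` over `t` in `[i / M, (i + 1) / M]`, for an integer `x`. -/
def cellU (M : ℤ) (x i : ℤ) : ℤ := if 0 ≤ x then M * x + i else -(M * x + i + 1)

/-- The board of the sub-cell `(i, j)`. -/
def cellBoard (M lim : ℤ) (i j : ℤ) (p : ℤ × ℤ) : Bool :=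
  decide (cellU M p.1 i ^ 2 + cellU M p.2 j ^ 2 ≤ lim)

/-- Scale an integer vector by `1 / D`. -/
noncomputable def toPlane (D : ℝ) (v : ℤ × ℤ) : ℝ × ℝ := ((v.1 : ℝ) / D, (v.2 : ℝ) / D)

/-- The square of `cellU` is at most the square of `M * (x + t)` for `t` in the sub-cell. -/
private theorem cellU_sq_le (M i x : ℤ) (hM : 0 < M) (hi0 : 0 ≤ i) (hiM : i < M) (t : ℝ)
    (ht1 : (i : ℝ) ≤ (M : ℝ) * t) (ht2 : (M : ℝ) * t ≤ (i : ℝ) + 1) :
    ((cellU M x i : ℤ) : ℝ) ^ 2 ≤ (M : ℝ) ^ 2 * ((x : ℝ) + t) ^ 2 := by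
  unfold cellU
  split_ifs with hx
  · have h0 : (0 : ℝ) ≤ ((M * x + i : ℤ) : ℝ) := by
      have hMx : (0 : ℤ) ≤ M * x := mul_nonneg hM.le hx
      have : (0 : ℤ) ≤ M * x + i := by linarith
      exact_mod_cast this
    have h1 : ((M * x + i : ℤ) : ℝ) ≤ (M : ℝ) * ((x : ℝ) + t) := by
      push_cast
      linarith
    calc ((M * x + i : ℤ) : ℝ) ^ 2 ≤ ((M : ℝ) * ((x : ℝ) + t)) ^ 2 :=
          pow_le_pow_left₀ h0 h1 2
      _ = (M : ℝ) ^ 2 * ((x : ℝ) + t) ^ 2 := by ring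
  · have hx' : x ≤ -1 := by omega
    have h0 : (0 : ℝ) ≤ ((-(M * x + i + 1) : ℤ) : ℝ) := by
      have hMx : M * x ≤ M * (-1) := mul_le_mul_of_nonneg_left hx' hM.le
      have : (0 : ℤ) ≤ -(M * x + i + 1) := by linarith
      exact_mod_cast this
    have h1 : ((-(M * x + i + 1) : ℤ) : ℝ) ≤ -((M : ℝ) * ((x : ℝ) + t)) := by
      push_cast
      linarith
    calc ((-(M * x + i + 1) : ℤ) : ℝ) ^ 2 ≤ (-((M : ℝ) * ((x : ℝ) + t))) ^ 2 :=
          pow_le_pow_left₀ h0 h1 2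
      _ = (M : ℝ) ^ 2 * ((x : ℝ) + t) ^ 2 := by ring

/-- A lattice point off the board of its sub-cell lies, after the shift and the scaling,
outside the disc. -/
private theorem exit_of_cell (D M : ℕ) (hD : 0 < D) (hM : 0 < M) (ρsq : ℝ) (lim : ℤ)
    (hlim : ρsq * (D : ℝ) ^ 2 * (M : ℝ) ^ 2 < (lim : ℝ) + 1)
    (i j : ℕ) (hi : i < M) (hj : j < M) (t1 t2 : ℝ)
    (h1a : (i : ℝ) ≤ (M : ℝ) * t1) (h1b : (M : ℝ) * t1 ≤ (i : ℝ) + 1)
    (h2a : (j : ℝ) ≤ (M : ℝ) * t2) (h2b : (M : ℝ) * t2 ≤ (j : ℝ) + 1)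
    (p : ℤ × ℤ) (hp : cellBoard (M : ℤ) lim (i : ℤ) (j : ℤ) p = false) :
    ρsq < (((p.1 : ℝ) + t1) / D) ^ 2 + (((p.2 : ℝ) + t2) / D) ^ 2 := by
  have hMpos : (0 : ℝ) < (M : ℝ) := by exact_mod_cast hM
  have hDpos : (0 : ℝ) < (D : ℝ) := by exact_mod_cast hD
  rw [cellBoard, decide_eq_false_iff_not] at hp
  have hp' : lim + 1 ≤ cellU (M : ℤ) p.1 (i : ℤ) ^ 2 + cellU (M : ℤ) p.2 (j : ℤ) ^ 2 :=
    Int.add_one_le_iff.mpr (not_le.mp hp)
  have hR : (lim : ℝ) + 1 ≤ ((cellU (M : ℤ) p.1 (i : ℤ) : ℤ) : ℝ) ^ 2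
      + ((cellU (M : ℤ) p.2 (j : ℤ) : ℤ) : ℝ) ^ 2 := by
    exact_mod_cast hp'
  have c1 := cellU_sq_le (M : ℤ) (i : ℤ) p.1 (by exact_mod_cast hM) (Int.natCast_nonneg i)
    (by exact_mod_cast hi) t1 (by push_cast; exact h1a) (by push_cast; exact h1b)
  have c2 := cellU_sq_le (M : ℤ) (j : ℤ) p.2 (by exact_mod_cast hM) (Int.natCast_nonneg j)
    (by exact_mod_cast hj) t2 (by push_cast; exact h2a) (by push_cast; exact h2b)
  push_cast at c1 c2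
  have key : ρsq * (D : ℝ) ^ 2 * (M : ℝ) ^ 2
      < (((p.1 : ℝ) + t1) ^ 2 + ((p.2 : ℝ) + t2) ^ 2) * (M : ℝ) ^ 2 := by
    linarith
  have key2 : ρsq * (D : ℝ) ^ 2 < ((p.1 : ℝ) + t1) ^ 2 + ((p.2 : ℝ) + t2) ^ 2 :=
    lt_of_mul_lt_mul_right key (by positivity)
  have e : (((p.1 : ℝ) + t1) / D) ^ 2 + (((p.2 : ℝ) + t2) / D) ^ 2
      = (((p.1 : ℝ) + t1) ^ 2 + ((p.2 : ℝ) + t2) ^ 2) / (D : ℝ) ^ 2 := by
    field_simp
  rw [e, lt_div_iff₀ (by positivity)]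
  exact key2

/-- Transport of the forcing property along the shift and the scaling. -/
private theorem exits_plane (D : ℝ) (ρsq t1 t2 : ℝ) (B : ℤ × ℤ → Prop)
    (hB : ∀ p : ℤ × ℤ, B p →
      ρsq < (((p.1 : ℝ) + t1) / D) ^ 2 + (((p.2 : ℝ) + t2) / D) ^ 2) :
    ∀ (l : List (ℤ × ℤ)) (p : ℤ × ℤ), Exits B p l →
      Exits (fun b : ℝ × ℝ => ρsq < b.1 ^ 2 + b.2 ^ 2)
        ((((p.1 : ℝ) + t1) / D), (((p.2 : ℝ) + t2) / D)) (l.map (toPlane D)) := by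
  intro l
  induction l with
  | nil => intro p h; exact hB p h
  | cons v l ih =>
    intro p h
    rw [List.map_cons]
    rcases h with h | ⟨h1, h2⟩
    · exact Or.inl (hB p h)
    · refine Or.inr ⟨?_, ?_⟩
      · have e : ((((p.1 : ℝ) + t1) / D), (((p.2 : ℝ) + t2) / D)) + toPlane D v
            = (((((p + v).1 : ℤ) : ℝ) + t1) / D, ((((p + v).2 : ℤ) : ℝ) + t2) / D) := by
          unfold toPlane
          refine Prod.ext ?_ ?_
          · simp only [Prod.fst_add]; push_cast; ring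
          · simp only [Prod.snd_add]; push_cast; ring
        rw [e]
        exact ih _ h1
      · have e : ((((p.1 : ℝ) + t1) / D), (((p.2 : ℝ) + t2) / D)) - toPlane D v
            = (((((p - v).1 : ℤ) : ℝ) + t1) / D, ((((p - v).2 : ℤ) : ℝ) + t2) / D) := by
          unfold toPlane
          refine Prod.ext ?_ ?_
          · simp only [Prod.fst_sub]; push_cast; ring
          · simp only [Prod.snd_sub]; push_cast; ring
        rw [e]
        exact ih _ h2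

/-- Every real number is a scaled lattice coordinate plus an offset in one of the `M`
sub-cells. -/
private theorem cell_coord (D M : ℕ) (hD : 0 < D) (hM : 0 < M) (x : ℝ) :
    ∃ (m : ℤ) (i : ℕ), i < M ∧ ∃ t : ℝ, (i : ℝ) ≤ (M : ℝ) * t ∧ (M : ℝ) * t ≤ (i : ℝ) + 1
      ∧ x = ((m : ℝ) + t) / D := by
  have hMpos : (0 : ℝ) < (M : ℝ) := by exact_mod_cast hM
  have hDpos : (0 : ℝ) < (D : ℝ) := by exact_mod_cast hD
  have ht0 : 0 ≤ (D : ℝ) * x - (⌊(D : ℝ) * x⌋ : ℝ) := by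
    have := Int.floor_le ((D : ℝ) * x); linarith
  have ht1 : (D : ℝ) * x - (⌊(D : ℝ) * x⌋ : ℝ) < 1 := by
    have := Int.lt_floor_add_one ((D : ℝ) * x); linarith
  obtain ⟨t, htdef⟩ : ∃ t : ℝ, t = (D : ℝ) * x - (⌊(D : ℝ) * x⌋ : ℝ) := ⟨_, rfl⟩
  rw [← htdef] at ht0 ht1
  have hk0 : 0 ≤ ⌊(M : ℝ) * t⌋ := Int.floor_nonneg.mpr (by positivity)
  have hk1 : ⌊(M : ℝ) * t⌋ < (M : ℤ) := by
    rw [Int.floor_lt]
    push_cast
    nlinarith
  have hcast : ((⌊(M : ℝ) * t⌋.toNat : ℕ) : ℤ) = ⌊(M : ℝ) * t⌋ := Int.toNat_of_nonneg hk0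
  have hcastR : ((⌊(M : ℝ) * t⌋.toNat : ℕ) : ℝ) = ((⌊(M : ℝ) * t⌋ : ℤ) : ℝ) := by
    exact_mod_cast congrArg (Int.cast (R := ℝ)) hcast
  refine ⟨⌊(D : ℝ) * x⌋, ⌊(M : ℝ) * t⌋.toNat, ?_, t, ?_, ?_, ?_⟩
  · omega
  · rw [hcastR]
    exact Int.floor_le _
  · rw [hcastR]
    exact (Int.lt_floor_add_one _).le
  · rw [htdef]
    field_simp
    ring

/-- If on each of the `M * M` sub-cell boards every signed walk along `l` leaves the board,
whatever its starting lattice point, then from every real starting point every signed walk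
along the scaled steps reaches squared norm greater than `ρsq`. -/
theorem planar_of_cells (D M : ℕ) (hD : 0 < D) (hM : 0 < M) (ρsq : ℝ) (lim : ℤ)
    (hlim : ρsq * (D : ℝ) ^ 2 * (M : ℝ) ^ 2 < (lim : ℝ) + 1)
    (l : List (ℤ × ℤ))
    (h : ∀ i j : ℕ, i < M → j < M → ∀ p : ℤ × ℤ,
      Exits (fun p => cellBoard (M : ℤ) lim (i : ℤ) (j : ℤ) p = false) p l) :
    ∀ a : ℝ × ℝ, Exits (fun b : ℝ × ℝ => ρsq < b.1 ^ 2 + b.2 ^ 2) a (l.map (toPlane D)) := by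
  intro a
  obtain ⟨m1, i, hi, t1, h1a, h1b, e1⟩ := cell_coord D M hD hM a.1
  obtain ⟨m2, j, hj, t2, h2a, h2b, e2⟩ := cell_coord D M hD hM a.2
  have hE := exits_plane (D : ℝ) ρsq t1 t2
    (fun p => cellBoard (M : ℤ) lim (i : ℤ) (j : ℤ) p = false)
    (fun p hp => exit_of_cell D M hD hM ρsq lim hlim i j hi hj t1 t2 h1a h1b h2a h2b p hp)
    l (m1, m2) (h i j hi hj (m1, m2))
  have ea : a = ((((m1 : ℝ) + t1) / D), (((m2 : ℝ) + t2) / D)) := Prod.ext e1 e2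
  rw [ea]
  exact hE

end Vale.Agent.Lib.P262
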