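import Vale.Agent.Lib.P262.Spine

/-!
A certificate checker for forcing sequences in three dimensions.

Vectors are given by integer coordinates `(x, y, z)` (to be divided by a common denominator).
`check T vs s` explores the tree of signings of the list `vs` started from the state `s`,
stopping a branch as soon as the squared norm of the current state is at least `T`; it returns
`true` when every branch stops in this way.
-/

namespace Vale.Agent.Lib.P262

open Finset

/-- Integer vectors. -/
abbrev V3 := ℤ × ℤ × ℤ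

/-- Squared Euclidean norm of an integer vector. -/
def nsq (s : V3) : ℤ := s.1 * s.1 + s.2.1 * s.2.1 + s.2.2 * s.2.2

/-- Every branch of the tree of signings of `vs` from the state `s` reaches squared norm `≥ T`. -/
def check (T : ℤ) : List V3 → V3 → Bool
  | [], s => decide (T ≤ nsq s)
  | v :: vs, s => decide (T ≤ nsq s) || (check T vs (s + v) && check T vs (s - v))

/-- The `i`-th entry of a list of vectors, zero beyond its length. -/
def vecOf (vs : List V3) (i : ℕ) : V3 := vs.getD i 0

theorem vecOf_cons (v : V3) (vs : List V3) : vecOf (v :: vs) = prepend v (vecOf vs) := by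
  funext i
  cases i with
  | zero => rfl
  | succ i => rfl

theorem vecOf_of_le (vs : List V3) {i : ℕ} (h : vs.length ≤ i) : vecOf vs i = 0 := by
  unfold vecOf
  simp [h]

theorem check_sound (T : ℤ) : ∀ (vs : List V3) (s : V3), check T vs s = true →
    ∀ ε : ℕ → ℤ, (∀ i, ε i = 1 ∨ ε i = -1) →
      ∃ k, k ≤ vs.length ∧ T ≤ nsq (s + ∑ i ∈ range k, ε i • vecOf vs i) := by
  intro vs
  induction vs with
  | nil =>
    intro s h ε _
    refine ⟨0, le_refl _, ?_⟩
    simp only [check, decide_eq_true_eq] at h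
    simpa using h
  | cons v vs ih =>
    intro s h ε hε
    simp only [check, Bool.or_eq_true, Bool.and_eq_true, decide_eq_true_eq] at h
    rcases h with h | ⟨h1, h2⟩
    · refine ⟨0, Nat.zero_le _, ?_⟩
      simpa using h
    · rcases hε 0 with h0 | h0
      · obtain ⟨k, hk, hT⟩ := ih (s + v) h1 (fun i => ε (i + 1)) (fun i => hε (i + 1))
        refine ⟨k + 1, by simp only [List.length_cons]; omega, ?_⟩
        rw [Finset.sum_range_succ', vecOf_cons]
        simp only [prepend_zero, prepend_succ, h0, one_smul]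
        have e : s + (∑ i ∈ range k, ε (i + 1) • vecOf vs i + v)
            = s + v + ∑ i ∈ range k, ε (i + 1) • vecOf vs i := by abel
        rw [e]
        exact hT
      · obtain ⟨k, hk, hT⟩ := ih (s - v) h2 (fun i => ε (i + 1)) (fun i => hε (i + 1))
        refine ⟨k + 1, by simp only [List.length_cons]; omega, ?_⟩
        rw [Finset.sum_range_succ', vecOf_cons]
        simp only [prepend_zero, prepend_succ, h0, neg_smul, one_smul]
        have e : s + (∑ i ∈ range k, ε (i + 1) • vecOf vs i + -v)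
            = s - v + ∑ i ∈ range k, ε (i + 1) • vecOf vs i := by abel
        rw [e]
        exact hT

variable {E : Type*} [NormedAddCommGroup E] [InnerProductSpace ℝ E]

/-- The real vector with integer coordinates `s` over the denominator `D` in the orthonormal
frame `a, b, c`. -/
noncomputable def realVec (a b c : E) (D : ℤ) (s : V3) : E :=
  ((s.1 : ℝ) / D) • a + ((s.2.1 : ℝ) / D) • b + ((s.2.2 : ℝ) / D) • c

theorem realVec_add (a b c : E) (D : ℤ) (s t : V3) :
    realVec a b c D (s + t) = realVec a b c D s + realVec a b c D t := by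
  unfold realVec
  simp only [Prod.fst_add, Prod.snd_add, Int.cast_add, add_div, add_smul]
  abel

theorem realVec_zero (a b c : E) (D : ℤ) : realVec a b c D 0 = 0 := by
  unfold realVec
  simp

theorem realVec_zsmul (a b c : E) (D : ℤ) (z : ℤ) (s : V3) :
    realVec a b c D (z • s) = (z : ℝ) • realVec a b c D s := by
  unfold realVec
  simp only [Prod.smul_fst, Prod.smul_snd, smul_eq_mul, Int.cast_mul, smul_add, smul_smul]
  congr 2 <;> ring_nf

theorem realVec_sum (a b c : E) (D : ℤ) (k : ℕ) (f : ℕ → V3) :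
    realVec a b c D (∑ i ∈ range k, f i) = ∑ i ∈ range k, realVec a b c D (f i) := by
  induction k with
  | zero => simp [realVec_zero]
  | succ k ih => rw [Finset.sum_range_succ, Finset.sum_range_succ, realVec_add, ih]

theorem norm_sq_comb3 {a b c : E} (ha : ‖a‖ = 1) (hb : ‖b‖ = 1) (hc : ‖c‖ = 1)
    (hab : inner ℝ a b = 0) (hac : inner ℝ a c = 0) (hbc : inner ℝ b c = 0) (x y z : ℝ) :
    ‖x • a + y • b + z • c‖ ^ 2 = x ^ 2 + y ^ 2 + z ^ 2 := by
  rw [norm_add_sq_real, norm_sq_comb ha hb hab, inner_add_left, inner_smul_left, inner_smul_left,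
    inner_smul_right, inner_smul_right, hac, hbc, norm_smul, hc]
  simp only [Real.norm_eq_abs, mul_one, mul_zero]
  rw [sq_abs]; simp

theorem norm_sq_realVec {a b c : E} (ha : ‖a‖ = 1) (hb : ‖b‖ = 1) (hc : ‖c‖ = 1)
    (hab : inner ℝ a b = 0) (hac : inner ℝ a c = 0) (hbc : inner ℝ b c = 0) (D : ℤ)
    (hD : 0 < D) (s : V3) :
    ‖realVec a b c D s‖ ^ 2 = (nsq s : ℝ) / (D : ℝ) ^ 2 := by
  unfold realVec nsq
  rw [norm_sq_comb3 ha hb hc hab hac hbc]
  have hD' : (D : ℝ) ≠ 0 := by exact_mod_cast hD.ne'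
  push_cast
  field_simp

/-- A successful check gives a forcing sequence in any orthonormal frame. -/
theorem forces_of_check {a b c : E} (ha : ‖a‖ = 1) (hb : ‖b‖ = 1) (hc : ‖c‖ = 1)
    (hab : inner ℝ a b = 0) (hac : inner ℝ a c = 0) (hbc : inner ℝ b c = 0) (D : ℤ)
    (hD : 0 < D) (T : ℤ) (vs : List V3) (h : check T vs 0 = true) :
    Forces (fun i => realVec a b c D (vecOf vs i)) vs.length ((T : ℝ) / (D : ℝ) ^ 2) := by
  intro ε hε
  have hex : ∀ i, ∃ z : ℤ, (z = 1 ∨ z = -1) ∧ (z : ℝ) = ε i := by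
    intro i
    rcases hε i with h1 | h1
    · exact ⟨1, Or.inl rfl, by rw [h1]; norm_num⟩
    · exact ⟨-1, Or.inr rfl, by rw [h1]; norm_num⟩
  choose εz hεz1 hεz2 using hex
  obtain ⟨k, hk, hT⟩ := check_sound T vs 0 h εz hεz1
  refine ⟨k, hk, ?_⟩
  have hsum : ∑ i ∈ range k, ε i • realVec a b c D (vecOf vs i)
      = realVec a b c D (0 + ∑ i ∈ range k, εz i • vecOf vs i) := by
    rw [zero_add, realVec_sum]
    apply Finset.sum_congr rfl
    intro i _
    rw [realVec_zsmul, hεz2]
  rw [hsum, norm_sq_realVec ha hb hc hab hac hbc D hD]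
  have hD2 : (0 : ℝ) < (D : ℝ) ^ 2 := by
    have : (0 : ℝ) < D := by exact_mod_cast hD
    positivity
  apply div_le_div_of_nonneg_right _ hD2.le
  exact_mod_cast hT

theorem forces_mono {v : ℕ → E} {N : ℕ} {T T' : ℝ} (h : Forces v N T) (hT : T' ≤ T) :
    Forces v N T' := by
  intro ε hε
  obtain ⟨k, hk, h1⟩ := h ε hε
  exact ⟨k, hk, hT.trans h1⟩

theorem nsq_vecOf_le (vs : List V3) (B : ℤ) (hB : 0 ≤ B) (h : ∀ v ∈ vs, nsq v ≤ B) (i : ℕ) :
    nsq (vecOf vs i) ≤ B := by
  by_cases hi : i < vs.length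
  · have : vecOf vs i = vs[i] := by
      unfold vecOf
      simp [List.getD_eq_getElem?_getD, hi]
    rw [this]
    exact h _ (List.getElem_mem hi)
  · rw [vecOf_of_le vs (not_lt.mp hi)]
    simpa [nsq] using hB

/-- Pass from sequences indexed by `ℕ` to families indexed by `Fin N`. -/
theorem forces_to_fin {v : ℕ → E} {N : ℕ} {T : ℝ} (hF : Forces v N T) (hnorm : ∀ i, ‖v i‖ ≤ 1) :
    ∃ w : Fin N → E, (∀ i, ‖w i‖ ≤ 1) ∧
      ∀ ε : Fin N → ℝ, (∀ i, ε i = 1 ∨ ε i = -1) →
        ∃ k : ℕ, k ≤ N ∧ T ≤ ‖∑ i : Fin N with i.val < k, ε i • w i‖ ^ 2 := by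
  refine ⟨fun i => v i.val, fun i => hnorm i.val, ?_⟩
  intro ε hε
  obtain ⟨k, hk, hT⟩ := hF (fun n => if h : n < N then ε ⟨n, h⟩ else 1) (by
    intro n
    by_cases h : n < N
    · simp only [dif_pos h]; exact hε _
    · simp only [dif_neg h]; left; trivial)
  refine ⟨k, hk, ?_⟩
  have hsum : ∑ i : Fin N with i.val < k, ε i • v i.val
      = ∑ n ∈ range k, (if h : n < N then ε ⟨n, h⟩ else 1) • v n := by
    have h1 : ∑ i : Fin N with i.val < k, ε i • v i.val
        = ∑ i : Fin N with i.val < k,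
            (fun n => (if h : n < N then ε ⟨n, h⟩ else 1) • v n) i.val := by
      apply Finset.sum_congr rfl
      intro i _
      simp only [dif_pos i.isLt]
    have h2 : ∀ g : ℕ → E, ∑ i : Fin N with i.val < k, g i.val = ∑ n ∈ range N with n < k, g n := by
      intro g
      rw [Finset.sum_filter, Finset.sum_filter,
        Fin.sum_univ_eq_sum_range (fun n => if n < k then g n else 0) N]
    rw [h1, h2 (fun n => (if h : n < N then ε ⟨n, h⟩ else 1) • v n)]
    apply Finset.sum_congr _ (fun _ _ => rfl)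
    ext n
    simp only [mem_filter, mem_range]
    omega
  rw [hsum]
  exact hT

end Vale.Agent.Lib.P262
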