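import Mathlib

/-!
Universal forcing for signed walks.

`Exits P a l` says: starting from the position `a`, every choice of signs for the steps of the
list `l` leads, after some initial segment of the steps (possibly empty), to a position
satisfying `P`.
-/

namespace Vale.Agent.Lib.P262

/-- Every signing of `l`, started at `a`, reaches `P` after some initial segment. -/
def Exits {E : Type*} [AddCommGroup E] (P : E → Prop) : E → List E → Prop
  | a, [] => P a
  | a, v :: l => P a ∨ (Exits P (a + v) l ∧ Exits P (a - v) l)

/-- Every signing of the whole list `l`, started at `a`, ends at a position satisfying `R`. -/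
def AllEnds {E : Type*} [AddCommGroup E] (R : E → Prop) : E → List E → Prop
  | a, [] => R a
  | a, v :: l => AllEnds R (a + v) l ∧ AllEnds R (a - v) l

section
variable {E : Type*} [AddCommGroup E]

theorem exits_of_holds {P : E → Prop} {a : E} (l : List E) (h : P a) : Exits P a l := by
  cases l with
  | nil => exact h
  | cons v l => exact Or.inl h

theorem exits_mono {P P' : E → Prop} (hPP : ∀ b, P b → P' b) :
    ∀ (l : List E) (a : E), Exits P a l → Exits P' a l := by
  intro l
  induction l with
  | nil => intro a h; exact hPP a h
  | cons v l ih =>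
    intro a h
    rcases h with h | ⟨h1, h2⟩
    · exact Or.inl (hPP a h)
    · exact Or.inr ⟨ih _ h1, ih _ h2⟩

theorem exits_append_left {P : E → Prop} (l2 : List E) :
    ∀ (l1 : List E) (a : E), Exits P a l1 → Exits P a (l1 ++ l2) := by
  intro l1
  induction l1 with
  | nil => intro a h; exact exits_of_holds l2 h
  | cons v l ih =>
    intro a h
    rcases h with h | ⟨h1, h2⟩
    · exact Or.inl h
    · exact Or.inr ⟨ih _ h1, ih _ h2⟩

theorem exits_append_of_allEnds {P : E → Prop} (l2 : List E) :
    ∀ (l1 : List E) (a : E), AllEnds (fun b => Exits P b l2) a l1 → Exits P a (l1 ++ l2) := by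
  intro l1
  induction l1 with
  | nil => intro a h; exact h
  | cons v l ih =>
    intro a h
    exact Or.inr ⟨ih _ h.1, ih _ h.2⟩

theorem allEnds_of_forall {R : E → Prop} (h : ∀ b, R b) :
    ∀ (l : List E) (a : E), AllEnds R a l := by
  intro l
  induction l with
  | nil => intro a; exact h a
  | cons v l ih => intro a; exact ⟨ih _, ih _⟩

/-- If `R` holds at `a` and is preserved by adding or subtracting any step of `l`, it holds at
all ends. -/
theorem allEnds_of_invariant {R : E → Prop}
    (l : List E) (hinv : ∀ v ∈ l, ∀ b, R b → R (b + v) ∧ R (b - v)) :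
    ∀ a, R a → AllEnds R a l := by
  induction l with
  | nil => intro a h; exact h
  | cons v l ih =>
    intro a h
    have hv := hinv v (List.mem_cons_self) a h
    have ih' := ih (fun w hw => hinv w (List.mem_cons_of_mem _ hw))
    exact ⟨ih' _ hv.1, ih' _ hv.2⟩

/-- If `P1` holds at `a`, is preserved by every step of `l`, and every signing of `l` from `a`
reaches `P2`, then every signing reaches a position with both. -/
theorem exits_and_of_invariant {P1 P2 : E → Prop}
    (l : List E) (hinv : ∀ v ∈ l, ∀ b, P1 b → P1 (b + v) ∧ P1 (b - v)) :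
    ∀ a, P1 a → Exits P2 a l → Exits (fun b => P1 b ∧ P2 b) a l := by
  induction l with
  | nil => intro a h1 h2; exact ⟨h1, h2⟩
  | cons v l ih =>
    intro a h1 h2
    have hv := hinv v (List.mem_cons_self) a h1
    have ih' := ih (fun w hw => hinv w (List.mem_cons_of_mem _ hw))
    rcases h2 with h2 | ⟨h2a, h2b⟩
    · exact Or.inl ⟨h1, h2⟩
    · exact Or.inr ⟨ih' _ hv.1 h2a, ih' _ hv.2 h2b⟩

/-- Interleave: the block `I`, then each step of `Q` followed by the block `I`. -/
def nest (Q I : List E) : List E := I ++ Q.flatMap (fun w => w :: I)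

theorem nest_nil (I : List E) : nest ([] : List E) I = I := by
  simp [nest]

theorem nest_cons (w : E) (Q I : List E) : nest (w :: Q) I = I ++ w :: nest Q I := by
  simp [nest]

/-- The nesting lemma.  Suppose `P1` is unchanged by the steps of `I`, and from every start
every signing of `I` reaches `P2`.  If every signing of `Q` from `a` reaches `P1`, then every
signing of `nest Q I` from `a` reaches a position where `P1` and `P2` hold together. -/
theorem exits_nest {P1 P2 : E → Prop} (I : List E)
    (hinv : ∀ v ∈ I, ∀ b, (P1 (b + v) ↔ P1 b) ∧ (P1 (b - v) ↔ P1 b))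
    (hI : ∀ a, Exits P2 a I) :
    ∀ (Q : List E) (a : E), Exits P1 a Q → Exits (fun b => P1 b ∧ P2 b) a (nest Q I) := by
  -- invariance of `Exits P1 · Q` under the steps of `I`
  have hExInv : ∀ (Q : List E) (v : E), v ∈ I → ∀ b, Exits P1 b Q →
      Exits P1 (b + v) Q ∧ Exits P1 (b - v) Q := by
    intro Q
    induction Q with
    | nil =>
      intro v hv b h
      exact ⟨(hinv v hv b).1.mpr h, (hinv v hv b).2.mpr h⟩
    | cons w Q ih =>
      intro v hv b h
      rcases h with h | ⟨h1, h2⟩
      · exact ⟨Or.inl ((hinv v hv b).1.mpr h), Or.inl ((hinv v hv b).2.mpr h)⟩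
      · have e1 : b + v + w = b + w + v := by abel
        have e2 : b + v - w = b - w + v := by abel
        have e3 : b - v + w = b + w - v := by abel
        have e4 : b - v - w = b - w - v := by abel
        refine ⟨Or.inr ⟨?_, ?_⟩, Or.inr ⟨?_, ?_⟩⟩
        · rw [e1]; exact (ih v hv _ h1).1
        · rw [e2]; exact (ih v hv _ h2).1
        · rw [e3]; exact (ih v hv _ h1).2
        · rw [e4]; exact (ih v hv _ h2).2
  have hinv' : ∀ v ∈ I, ∀ b, P1 b → P1 (b + v) ∧ P1 (b - v) := by
    intro v hv b h
    exact ⟨(hinv v hv b).1.mpr h, (hinv v hv b).2.mpr h⟩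
  intro Q
  induction Q with
  | nil =>
    intro a h
    rw [nest_nil]
    exact exits_and_of_invariant I hinv' a h (hI a)
  | cons w Q ih =>
    intro a h
    rw [nest_cons]
    rcases h with h | ⟨h1, h2⟩
    · exact exits_append_left _ I a (exits_and_of_invariant I hinv' a h (hI a))
    · apply exits_append_of_allEnds
      have hR : AllEnds (fun b => Exits P1 (b + w) Q ∧ Exits P1 (b - w) Q) a I := by
        apply allEnds_of_invariant I _ a ⟨h1, h2⟩
        intro v hv b hb
        have e1 : b + v + w = b + w + v := by abel
        have e2 : b + v - w = b - w + v := by abel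
        have e3 : b - v + w = b + w - v := by abel
        have e4 : b - v - w = b - w - v := by abel
        refine ⟨⟨?_, ?_⟩, ⟨?_, ?_⟩⟩
        · rw [e1]; exact (hExInv Q v hv _ hb.1).1
        · rw [e2]; exact (hExInv Q v hv _ hb.2).1
        · rw [e3]; exact (hExInv Q v hv _ hb.1).2
        · rw [e4]; exact (hExInv Q v hv _ hb.2).2
      -- turn the statement at all ends into the goal
      have hmono : ∀ (l : List E) (c : E),
          AllEnds (fun b => Exits P1 (b + w) Q ∧ Exits P1 (b - w) Q) c l →
          AllEnds (fun b => Exits (fun b => P1 b ∧ P2 b) b (w :: nest Q I)) c l := by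
        intro l
        induction l with
        | nil =>
          intro c hc
          exact Or.inr ⟨ih _ hc.1, ih _ hc.2⟩
        | cons u l ihl =>
          intro c hc
          exact ⟨ihl _ hc.1, ihl _ hc.2⟩
      exact hmono I a hR

end

end Vale.Agent.Lib.P262
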