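import Vale.Agent.Lib.P262.Check

/-!
An explicit forcing sequence of twenty vectors in three dimensions (integer coordinates over
the denominator `1000`): every signing has an initial sum of squared norm at least
`4333334 / 1000^2 > 13/3`.
-/

namespace Vale.Agent.Lib.P262

/-- Twenty integer vectors of squared norm at most `1000^2`. -/
def gadget3 : List V3 :=
  [(849, -170, -500), (-707, 211, -675), (413, 850, 325), (625, 760, 174), (256, 950, -176),
   (879, -474, 41), (780, -596, 190), (951, -300, -67), (271, 813, -515), (260, 844, -468),
   (234, -643, 729), (-962, 239, -130), (936, -58, -347), (-68, -87, 993), (-166, -36, 985),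
   (-25, 343, -939), (-92, 667, -739), (-865, 354, 355), (962, -14, -272), (19, -896, 443)]

theorem gadget3_length : gadget3.length = 20 := by decide

theorem gadget3_check : check 4333334 gadget3 0 = true := by decide +kernel

theorem gadget3_norm : ∀ v ∈ gadget3, nsq v ≤ 1000000 := by decide +kernel

end Vale.Agent.Lib.P262
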