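import Vale.Agent.Lib.P262.Exits

/-!
Reachable-set propagation on bit masks, and its soundness for `Exits` on the integer lattice.
-/

namespace Vale.Agent.Lib.P262

/-- One step of the reachable-set propagation on bit masks. -/
def stepMask (mask R s : ℕ) : ℕ := ((R <<< s) ||| (R >>> s)) &&& mask

/-- Propagate the full board through a list of shifts. -/
def runMask (mask : ℕ) (shifts : List ℕ) : ℕ := shifts.foldl (stepMask mask) mask

/-- Bit index of a lattice point (row length `W`, offsets `X0`, `Y0`). -/
def enc (W X0 Y0 : ℤ) (p : ℤ × ℤ) : ℕ := ((p.1 + X0) + W * (p.2 + Y0)).toNat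

/-- Shift amount of a step. -/
def shiftOf (W : ℤ) (v : ℤ × ℤ) : ℕ := (v.1 + W * v.2).natAbs

/-- Bit computation for one propagation step: a set bit at `a` moves to `a + z` and `a - z`
whenever these are bits of the board. -/
theorem maskAux_bit (mask R : ℕ) (a b z : ℤ) (ha : 0 ≤ a) (hb : 0 ≤ b)
    (hab : b = a + z ∨ b = a - z) (hqm : mask.testBit b.toNat = true)
    (hR : R.testBit a.toNat = true) :
    (stepMask mask R z.natAbs).testBit b.toNat = true := by
  unfold stepMask
  rw [Nat.testBit_and, Nat.testBit_or, Nat.testBit_shiftLeft, Nat.testBit_shiftRight, hqm,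
    Bool.and_true]
  have key : b.toNat = a.toNat + z.natAbs ∨ b.toNat + z.natAbs = a.toNat := by omega
  rcases key with h | h
  · have h1 : z.natAbs ≤ b.toNat := by omega
    have h2 : b.toNat - z.natAbs = a.toNat := by omega
    rw [h2, hR]
    simp [h1]
  · have h2 : z.natAbs + b.toNat = a.toNat := by omega
    rw [h2, hR]
    simp

/-- The generalisation of the soundness statement to an arbitrary current reachable set. -/
theorem maskAux_gen (W X0 Y0 : ℤ) (hW : 0 ≤ W) (inB : ℤ × ℤ → Bool) (mask : ℕ)
    (hmask : ∀ p : ℤ × ℤ, inB p = true →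
      0 ≤ p.1 + X0 ∧ 0 ≤ p.2 + Y0 ∧ mask.testBit (enc W X0 Y0 p) = true) :
    ∀ (l : List (ℤ × ℤ)) (R : ℕ) (p : ℤ × ℤ), inB p = true →
      R.testBit (enc W X0 Y0 p) = true →
      (l.map (shiftOf W)).foldl (stepMask mask) R = 0 →
      Exits (fun p => inB p = false) p l := by
  intro l
  induction l with
  | nil =>
    intro R p _ hbit hrun
    simp only [List.map_nil, List.foldl_nil] at hrun
    rw [hrun, Nat.zero_testBit] at hbit
    exact absurd hbit (by decide)
  | cons v l ih =>
    intro R p hp hbit hrun
    rw [List.map_cons, List.foldl_cons] at hrun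
    obtain ⟨hp1, hp2, -⟩ := hmask p hp
    have ha : 0 ≤ p.1 + X0 + W * (p.2 + Y0) := add_nonneg hp1 (mul_nonneg hW hp2)
    have hstep : ∀ q : ℤ × ℤ, inB q = true →
        (q.1 + X0 + W * (q.2 + Y0) = (p.1 + X0 + W * (p.2 + Y0)) + (v.1 + W * v.2) ∨
          q.1 + X0 + W * (q.2 + Y0) = (p.1 + X0 + W * (p.2 + Y0)) - (v.1 + W * v.2)) →
        Exits (fun p => inB p = false) q l := by
      intro q hq hqp
      obtain ⟨hq1, hq2, hqm⟩ := hmask q hq
      have hb : 0 ≤ q.1 + X0 + W * (q.2 + Y0) := add_nonneg hq1 (mul_nonneg hW hq2)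
      exact ih _ q hq (maskAux_bit mask R _ _ _ ha hb hqp hqm hbit) hrun
    refine Or.inr ⟨?_, ?_⟩
    · cases hq : inB (p + v) with
      | false => exact exits_of_holds l hq
      | true =>
        refine hstep (p + v) hq (Or.inl ?_)
        simp only [Prod.fst_add, Prod.snd_add]
        ring
    · cases hq : inB (p - v) with
      | false => exact exits_of_holds l hq
      | true =>
        refine hstep (p - v) hq (Or.inr ?_)
        simp only [Prod.fst_sub, Prod.snd_sub]
        ring

/-- If the propagation of the full board through the steps of `l` ends with the empty set,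
then from every lattice point every signing of `l` leaves the board. -/
theorem exits_of_runMask (W X0 Y0 : ℤ) (hW : 0 ≤ W) (inB : ℤ × ℤ → Bool) (mask : ℕ)
    (hmask : ∀ p : ℤ × ℤ, inB p = true →
      0 ≤ p.1 + X0 ∧ 0 ≤ p.2 + Y0 ∧ mask.testBit (enc W X0 Y0 p) = true)
    (l : List (ℤ × ℤ)) (hrun : runMask mask (l.map (shiftOf W)) = 0) :
    ∀ p : ℤ × ℤ, Exits (fun p => inB p = false) p l := by
  intro p
  cases hp : inB p with
  | false => exact exits_of_holds l hp
  | true =>
    exact maskAux_gen W X0 Y0 hW inB mask hmask l mask p hp (hmask p hp).2.2 hrun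

end Vale.Agent.Lib.P262
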