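import Vale.Agent.Lib.P262.PlanarMasks
import Vale.Agent.Lib.P262.Mask
import Vale.Agent.Lib.P262.Cell

/-!
The kernel-checked certificate: on each of the four sub-cell boards (radius squared `11/5`,
lattice of spacing `1/64`) every signed walk along `master` leaves the board.  Hence from every
real starting point of the plane every signed walk along the scaled list reaches squared norm
greater than `11/5`.
-/

namespace Vale.Agent.Lib.P262

/-- Natural-number form of `cellU 2 (a - 96) i`. -/
def uNat (i a : ℕ) : ℕ := if 96 ≤ a then 2 * (a - 96) + i else 2 * (96 - a) - (i + 1)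

/-- Natural-number form of the sub-cell board, in shifted coordinates. -/
def natBoard (i j a b : ℕ) : Bool := Nat.ble (uNat i a ^ 2 + uNat j b ^ 2) 36044

/-- The mask contains every point of the board. -/
def maskOK (i j mask : ℕ) : Bool :=
  (List.range 193).all fun b => (List.range 193).all fun a =>
    !natBoard i j a b || mask.testBit (a + 266 * b)

/-- Propagation through the coarse list. -/
def runK (mask R : ℕ) : ℕ := killShifts.foldl (stepMask mask) R

/-- Propagation through the full list. -/
def runAll (mask : ℕ) : ℕ :=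
  (travL 4).foldl (fun R s => runK mask (stepMask mask R (shiftOf 266 (fineStep s))))
    (runK mask mask)

theorem killShifts_eq : killFine.map (shiftOf 266) = killShifts := by decide +kernel

theorem killSeq_norm : ∀ v ∈ killSeq, v.1 ^ 2 + v.2 ^ 2 ≤ 16 := by decide +kernel

theorem maskOK00 : maskOK 0 0 mask00 = true := by decide +kernel
theorem maskOK01 : maskOK 0 1 mask01 = true := by decide +kernel
theorem maskOK10 : maskOK 1 0 mask10 = true := by decide +kernel
theorem maskOK11 : maskOK 1 1 mask11 = true := by decide +kernel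

theorem runAll00 : runAll mask00 = 0 := by decide +kernel
theorem runAll01 : runAll mask01 = 0 := by decide +kernel
theorem runAll10 : runAll mask10 = 0 := by decide +kernel
theorem runAll11 : runAll mask11 = 0 := by decide +kernel

theorem run_flat (mask : ℕ) : ∀ (T : List (ℕ × ℕ)) (R : ℕ),
    ((T.flatMap (fun s => fineStep s :: killFine)).map (shiftOf 266)).foldl (stepMask mask) R
      = T.foldl (fun R s => runK mask (stepMask mask R (shiftOf 266 (fineStep s)))) R := by
  intro T
  induction T with
  | nil => intro R; rfl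
  | cons s T ih =>
    intro R
    rw [List.flatMap_cons, List.map_append, List.foldl_append, List.map_cons, List.foldl_cons,
      killShifts_eq, ih, List.foldl_cons]
    rfl

theorem runMask_master (mask : ℕ) : runMask mask (master.map (shiftOf 266)) = runAll mask := by
  unfold runMask master runAll
  rw [List.map_append, List.foldl_append, killShifts_eq, run_flat]
  rfl

theorem cellU_window (i x : ℤ) (hi0 : 0 ≤ i) (hi1 : i ≤ 1) (h : cellU 2 x i ^ 2 ≤ 36044) :
    -96 ≤ x ∧ x ≤ 96 := by
  unfold cellU at h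
  split_ifs at h with hx
  · refine ⟨by omega, ?_⟩
    by_contra hc
    have h1 : (194 : ℤ) ≤ 2 * x + i := by omega
    nlinarith
  · refine ⟨?_, by omega⟩
    by_contra hc
    have h1 : (192 : ℤ) ≤ -(2 * x + i + 1) := by omega
    nlinarith

theorem cellU_eq_uNat (i : ℕ) (x : ℤ) (hi1 : i ≤ 1) (h1 : -96 ≤ x) (h2 : x ≤ 96) :
    cellU 2 x (i : ℤ) = (uNat i (x + 96).toNat : ℤ) := by
  unfold cellU uNat
  split_ifs with ha hb hb <;> omega

theorem mask_of_maskOK (i j mask : ℕ) (hi : i ≤ 1) (hj : j ≤ 1) (hOK : maskOK i j mask = true)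
    (p : ℤ × ℤ) (hp : cellBoard 2 36044 (i : ℤ) (j : ℤ) p = true) :
    0 ≤ p.1 + 96 ∧ 0 ≤ p.2 + 96 ∧ mask.testBit (enc 266 96 96 p) = true := by
  unfold cellBoard at hp
  rw [decide_eq_true_eq] at hp
  have hsq1 : 0 ≤ cellU 2 p.1 (i : ℤ) ^ 2 := sq_nonneg _
  have hsq2 : 0 ≤ cellU 2 p.2 (j : ℤ) ^ 2 := sq_nonneg _
  have hw1 := cellU_window (i : ℤ) p.1 (by omega) (by omega) (by linarith)
  have hw2 := cellU_window (j : ℤ) p.2 (by omega) (by omega) (by linarith)
  refine ⟨by omega, by omega, ?_⟩
  rw [cellU_eq_uNat i p.1 hi hw1.1 hw1.2, cellU_eq_uNat j p.2 hj hw2.1 hw2.2] at hp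
  have hp' : uNat i (p.1 + 96).toNat ^ 2 + uNat j (p.2 + 96).toNat ^ 2 ≤ 36044 := by
    exact_mod_cast hp
  unfold maskOK at hOK
  rw [List.all_eq_true] at hOK
  have hb := hOK (p.2 + 96).toNat (by rw [List.mem_range]; omega)
  rw [List.all_eq_true] at hb
  have ha := hb (p.1 + 96).toNat (by rw [List.mem_range]; omega)
  have hnb : natBoard i j (p.1 + 96).toNat (p.2 + 96).toNat = true := by
    unfold natBoard
    exact Nat.ble_eq_true_of_le hp'
  rw [hnb] at ha
  have henc : enc 266 96 96 p = (p.1 + 96).toNat + 266 * (p.2 + 96).toNat := by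
    unfold enc
    omega
  rw [henc]
  simpa using ha

theorem cell_exits_aux (i j mask : ℕ) (hi : i ≤ 1) (hj : j ≤ 1) (hOK : maskOK i j mask = true)
    (hrun : runAll mask = 0) :
    ∀ p : ℤ × ℤ, Exits (fun p => cellBoard 2 36044 (i : ℤ) (j : ℤ) p = false) p master := by
  apply exits_of_runMask 266 96 96 (by norm_num) (cellBoard 2 36044 (i : ℤ) (j : ℤ)) mask
  · intro p hp
    exact mask_of_maskOK i j mask hi hj hOK p hp
  · rw [runMask_master]
    exact hrun

theorem cell_exits (i j : ℕ) (hi : i < 2) (hj : j < 2) :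
    ∀ p : ℤ × ℤ, Exits (fun p => cellBoard ((2 : ℕ) : ℤ) 36044 (i : ℤ) (j : ℤ) p = false) p
      master := by
  have h2 : ((2 : ℕ) : ℤ) = 2 := by norm_num
  rw [h2]
  interval_cases i <;> interval_cases j
  · exact cell_exits_aux 0 0 mask00 (by norm_num) (by norm_num) maskOK00 runAll00
  · exact cell_exits_aux 0 1 mask01 (by norm_num) (by norm_num) maskOK01 runAll01
  · exact cell_exits_aux 1 0 mask10 (by norm_num) (by norm_num) maskOK10 runAll10
  · exact cell_exits_aux 1 1 mask11 (by norm_num) (by norm_num) maskOK11 runAll11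

/-- The universal planar list. -/
noncomputable def planarList : List (ℝ × ℝ) := master.map (toPlane ((64 : ℕ) : ℝ))

/-- From every starting point of the plane, every signed walk along `planarList` reaches squared
norm greater than `11/5`. -/
theorem planar_universal :
    ∀ a : ℝ × ℝ, Exits (fun b : ℝ × ℝ => (11 / 5 : ℝ) < b.1 ^ 2 + b.2 ^ 2) a planarList := by
  apply planar_of_cells 64 2 (by norm_num) (by norm_num) (11 / 5) 36044 (by norm_num) master
  intro i j hi hj
  exact cell_exits i j hi hj

theorem master_norm : ∀ v ∈ master, v.1 ^ 2 + v.2 ^ 2 ≤ 4096 := by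
  intro v hv
  unfold master at hv
  rw [List.mem_append, List.mem_flatMap] at hv
  have hK : ∀ v ∈ killFine, v.1 ^ 2 + v.2 ^ 2 ≤ 4096 := by
    intro v hv
    unfold killFine at hv
    rw [List.mem_map] at hv
    obtain ⟨u, hu, rfl⟩ := hv
    have := killSeq_norm u hu
    nlinarith
  rcases hv with hv | ⟨s, -, hv⟩
  · exact hK v hv
  · rw [List.mem_cons] at hv
    rcases hv with rfl | hv
    · unfold fineStep
      have hpow : (2 : ℤ) ^ (4 - s.1) ≤ 16 := by
        have : (2 : ℤ) ^ (4 - s.1) ≤ 2 ^ 4 := pow_le_pow_right₀ (by norm_num) (by omega)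
        linarith
      have hpos : (0 : ℤ) ≤ 2 ^ (4 - s.1) := by positivity
      split_ifs <;> simp only <;> nlinarith
    · exact hK v hv

theorem planarList_norm : ∀ w ∈ planarList, w.1 ^ 2 + w.2 ^ 2 ≤ 1 := by
  intro w hw
  unfold planarList at hw
  rw [List.mem_map] at hw
  obtain ⟨v, hv, rfl⟩ := hw
  have h := master_norm v hv
  have h' : ((v.1 : ℝ)) ^ 2 + ((v.2 : ℝ)) ^ 2 ≤ 4096 := by exact_mod_cast h
  unfold toPlane
  simp only [Nat.cast_ofNat]
  rw [div_pow, div_pow, ← add_div, div_le_one (by norm_num)]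
  norm_num
  linarith

end Vale.Agent.Lib.P262
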