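import Vale.Agent.Lib.P262.PlanarMasksB
import Vale.Agent.Lib.P262.Mask
import Vale.Agent.Lib.P262.Cell

/-!
The second kernel-checked certificate: on each of the four sub-cell boards (radius squared
`5/2`, lattice of spacing `1/40`) every signed walk along `masterB` leaves the board.  Hence
from every real starting point of the plane every signed walk along the scaled list reaches
squared norm greater than `5/2`.
-/

namespace Vale.Agent.Lib.P262

/-- Natural-number form of `cellU 2 (a - 64) i`. -/
def uNatB (i a : ℕ) : ℕ := if 64 ≤ a then 2 * (a - 64) + i else 2 * (64 - a) - (i + 1)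

/-- Natural-number form of the sub-cell board, in shifted coordinates. -/
def natBoardB (i j a b : ℕ) : Bool := Nat.ble (uNatB i a ^ 2 + uNatB j b ^ 2) 16000

/-- The mask contains every point of the board. -/
def maskOKB (i j mask : ℕ) : Bool :=
  (List.range 129).all fun b => (List.range 129).all fun a =>
    !natBoardB i j a b || mask.testBit (a + 180 * b)

/-- Propagation through the coarse list. -/
def runKB (mask R : ℕ) : ℕ := killShiftsB.foldl (stepMask mask) R

/-- Propagation through the full list. -/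
def runAllB (mask : ℕ) : ℕ :=
  (travL 3).foldl (fun R s => runKB mask (stepMask mask R (shiftOf 180 (fineStepB s))))
    (runKB mask mask)

theorem killShiftsB_eq : killFineB.map (shiftOf 180) = killShiftsB := by decide +kernel

theorem killSeqB_norm : ∀ v ∈ killSeqB, v.1 ^ 2 + v.2 ^ 2 ≤ 25 := by decide +kernel

theorem maskOKB00 : maskOKB 0 0 maskB_00 = true := by decide +kernel
theorem maskOKB01 : maskOKB 0 1 maskB_01 = true := by decide +kernel
theorem maskOKB10 : maskOKB 1 0 maskB_10 = true := by decide +kernel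
theorem maskOKB11 : maskOKB 1 1 maskB_11 = true := by decide +kernel

theorem runAllB00 : runAllB maskB_00 = 0 := by decide +kernel
theorem runAllB01 : runAllB maskB_01 = 0 := by decide +kernel
theorem runAllB10 : runAllB maskB_10 = 0 := by decide +kernel
theorem runAllB11 : runAllB maskB_11 = 0 := by decide +kernel

theorem run_flatB (mask : ℕ) : ∀ (T : List (ℕ × ℕ)) (R : ℕ),
    ((T.flatMap (fun s => fineStepB s :: killFineB)).map (shiftOf 180)).foldl (stepMask mask) R
      = T.foldl (fun R s => runKB mask (stepMask mask R (shiftOf 180 (fineStepB s)))) R := by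
  intro T
  induction T with
  | nil => intro R; rfl
  | cons s T ih =>
    intro R
    rw [List.flatMap_cons, List.map_append, List.foldl_append, List.map_cons, List.foldl_cons,
      killShiftsB_eq, ih, List.foldl_cons]
    rfl

theorem runMask_masterB (mask : ℕ) :
    runMask mask (masterB.map (shiftOf 180)) = runAllB mask := by
  unfold runMask masterB runAllB
  rw [List.map_append, List.foldl_append, killShiftsB_eq, run_flatB]
  rfl

theorem cellU_windowB (i x : ℤ) (hi0 : 0 ≤ i) (hi1 : i ≤ 1) (h : cellU 2 x i ^ 2 ≤ 16000) :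
    -64 ≤ x ∧ x ≤ 64 := by
  unfold cellU at h
  split_ifs at h with hx
  · refine ⟨by omega, ?_⟩
    by_contra hc
    have h1 : (130 : ℤ) ≤ 2 * x + i := by omega
    nlinarith
  · refine ⟨?_, by omega⟩
    by_contra hc
    have h1 : (128 : ℤ) ≤ -(2 * x + i + 1) := by omega
    nlinarith

theorem cellU_eq_uNatB (i : ℕ) (x : ℤ) (hi1 : i ≤ 1) (h1 : -64 ≤ x) (h2 : x ≤ 64) :
    cellU 2 x (i : ℤ) = (uNatB i (x + 64).toNat : ℤ) := by
  unfold cellU uNatB
  split_ifs with ha hb hb <;> omega

theorem mask_of_maskOKB (i j mask : ℕ) (hi : i ≤ 1) (hj : j ≤ 1)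
    (hOK : maskOKB i j mask = true)
    (p : ℤ × ℤ) (hp : cellBoard 2 16000 (i : ℤ) (j : ℤ) p = true) :
    0 ≤ p.1 + 64 ∧ 0 ≤ p.2 + 64 ∧ mask.testBit (enc 180 64 64 p) = true := by
  unfold cellBoard at hp
  rw [decide_eq_true_eq] at hp
  have hsq1 : 0 ≤ cellU 2 p.1 (i : ℤ) ^ 2 := sq_nonneg _
  have hsq2 : 0 ≤ cellU 2 p.2 (j : ℤ) ^ 2 := sq_nonneg _
  have hw1 := cellU_windowB (i : ℤ) p.1 (by omega) (by omega) (by linarith)
  have hw2 := cellU_windowB (j : ℤ) p.2 (by omega) (by omega) (by linarith)
  refine ⟨by omega, by omega, ?_⟩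
  rw [cellU_eq_uNatB i p.1 hi hw1.1 hw1.2, cellU_eq_uNatB j p.2 hj hw2.1 hw2.2] at hp
  have hp' : uNatB i (p.1 + 64).toNat ^ 2 + uNatB j (p.2 + 64).toNat ^ 2 ≤ 16000 := by
    exact_mod_cast hp
  unfold maskOKB at hOK
  rw [List.all_eq_true] at hOK
  have hb := hOK (p.2 + 64).toNat (by rw [List.mem_range]; omega)
  rw [List.all_eq_true] at hb
  have ha := hb (p.1 + 64).toNat (by rw [List.mem_range]; omega)
  have hnb : natBoardB i j (p.1 + 64).toNat (p.2 + 64).toNat = true := by
    unfold natBoardB
    exact Nat.ble_eq_true_of_le hp'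
  rw [hnb] at ha
  have henc : enc 180 64 64 p = (p.1 + 64).toNat + 180 * (p.2 + 64).toNat := by
    unfold enc
    omega
  rw [henc]
  simpa using ha

theorem cell_exits_auxB (i j mask : ℕ) (hi : i ≤ 1) (hj : j ≤ 1)
    (hOK : maskOKB i j mask = true) (hrun : runAllB mask = 0) :
    ∀ p : ℤ × ℤ, Exits (fun p => cellBoard 2 16000 (i : ℤ) (j : ℤ) p = false) p masterB := by
  apply exits_of_runMask 180 64 64 (by norm_num) (cellBoard 2 16000 (i : ℤ) (j : ℤ)) mask
  · intro p hp
    exact mask_of_maskOKB i j mask hi hj hOK p hp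
  · rw [runMask_masterB]
    exact hrun

theorem cell_exitsB (i j : ℕ) (hi : i < 2) (hj : j < 2) :
    ∀ p : ℤ × ℤ, Exits (fun p => cellBoard ((2 : ℕ) : ℤ) 16000 (i : ℤ) (j : ℤ) p = false) p
      masterB := by
  have h2 : ((2 : ℕ) : ℤ) = 2 := by norm_num
  rw [h2]
  interval_cases i <;> interval_cases j
  · exact cell_exits_auxB 0 0 maskB_00 (by norm_num) (by norm_num) maskOKB00 runAllB00
  · exact cell_exits_auxB 0 1 maskB_01 (by norm_num) (by norm_num) maskOKB01 runAllB01
  · exact cell_exits_auxB 1 0 maskB_10 (by norm_num) (by norm_num) maskOKB10 runAllB10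
  · exact cell_exits_auxB 1 1 maskB_11 (by norm_num) (by norm_num) maskOKB11 runAllB11

/-- The second universal planar list. -/
noncomputable def planarListB : List (ℝ × ℝ) := masterB.map (toPlane ((40 : ℕ) : ℝ))

/-- From every starting point of the plane, every signed walk along `planarListB` reaches
squared norm greater than `5/2`. -/
theorem planar_universalB :
    ∀ a : ℝ × ℝ, Exits (fun b : ℝ × ℝ => (5 / 2 : ℝ) < b.1 ^ 2 + b.2 ^ 2) a planarListB := by
  apply planar_of_cells 40 2 (by norm_num) (by norm_num) (5 / 2) 16000 (by norm_num) masterB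
  intro i j hi hj
  exact cell_exitsB i j hi hj

theorem masterB_norm : ∀ v ∈ masterB, v.1 ^ 2 + v.2 ^ 2 ≤ 1600 := by
  intro v hv
  unfold masterB at hv
  rw [List.mem_append, List.mem_flatMap] at hv
  have hK : ∀ v ∈ killFineB, v.1 ^ 2 + v.2 ^ 2 ≤ 1600 := by
    intro v hv
    unfold killFineB at hv
    rw [List.mem_map] at hv
    obtain ⟨u, hu, rfl⟩ := hv
    have := killSeqB_norm u hu
    nlinarith
  rcases hv with hv | ⟨s, -, hv⟩
  · exact hK v hv
  · rw [List.mem_cons] at hv
    rcases hv with rfl | hv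
    · unfold fineStepB
      have hpow : (2 : ℤ) ^ (3 - s.1) ≤ 8 := by
        have : (2 : ℤ) ^ (3 - s.1) ≤ 2 ^ 3 := pow_le_pow_right₀ (by norm_num) (by omega)
        linarith
      have hpos : (0 : ℤ) ≤ 2 ^ (3 - s.1) := by positivity
      split_ifs <;> simp only <;> nlinarith
    · exact hK v hv

theorem planarListB_norm : ∀ w ∈ planarListB, w.1 ^ 2 + w.2 ^ 2 ≤ 1 := by
  intro w hw
  unfold planarListB at hw
  rw [List.mem_map] at hw
  obtain ⟨v, hv, rfl⟩ := hw
  have h := masterB_norm v hv
  have h' : ((v.1 : ℝ)) ^ 2 + ((v.2 : ℝ)) ^ 2 ≤ 1600 := by exact_mod_cast h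
  unfold toPlane
  simp only [Nat.cast_ofNat]
  rw [div_pow, div_pow, ← add_div, div_le_one (by norm_num)]
  norm_num
  linarith

end Vale.Agent.Lib.P262
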