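import Mathlib

/-!
Data of a universal planar list: a list of 236 steps on the lattice of spacing `1/4` that
forces every signed walk out of a fixed board of 108 lattice points, and the list obtained from
it by interleaving with a traversal of the classes of the lattice of spacing `1/64` modulo the
lattice of spacing `1/4`.
-/

namespace Vale.Agent.Lib.P262

/-- The coarse list, in units of `1/4`. -/
def killSeq : List (ℤ × ℤ) := [
  (0, 4), (0, 2), (0, 4), (0, 1), (0, 4), (0, 2), (0, 4), (1, -3), (0, 4), (2, 3),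
  (4, 0), (3, -2), (3, -2), (2, -3), (0, 4), (0, 4), (0, 3), (0, 4), (0, 3), (4, 0),
  (0, 4), (0, 2), (0, 4), (0, 2), (3, -2), (0, 4), (4, 0), (0, 4), (0, 2), (0, 4),
  (0, 2), (3, -2), (0, 4), (0, 2), (0, 4), (4, 0), (0, 4), (0, 2), (3, -2), (4, 0),
  (3, 2), (0, 4), (1, 2), (3, -2), (4, 0), (3, 2), (0, 4), (2, -3), (4, 0), (0, 4),
  (2, 3), (0, 4), (2, 3), (3, -1), (0, 4), (2, 3), (4, 0), (3, 0), (4, 0), (3, 0),
  (4, 0), (0, 4), (4, 0), (2, 0), (4, 0), (0, 3), (2, -3), (1, -3), (0, 3), (2, 3),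
  (0, 4), (0, 4), (1, 3), (0, 3), (0, 4), (0, 4), (2, -3), (4, 0), (2, 3), (0, 4),
  (4, 0), (2, 0), (4, 0), (2, 0), (4, 0), (3, 0), (4, 0), (3, 0), (4, 0), (3, -1),
  (4, 0), (0, 4), (0, 4), (0, 2), (0, 4), (0, 3), (0, 4), (0, 4), (2, -3), (4, 0),
  (3, 2), (0, 4), (2, -3), (4, 0), (2, 3), (0, 4), (4, 0), (0, 4), (2, 3), (4, 0),
  (2, -3), (0, 4), (4, 0), (0, 4), (0, 3), (4, 0), (0, 4), (4, 0), (2, 3), (0, 4),
  (4, 0), (0, 4), (0, 3), (2, -3), (0, 4), (0, 4), (2, -3), (4, 0), (2, 3), (0, 4),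
  (0, 4), (2, 3), (2, -3), (0, 4), (0, 4), (2, 3), (4, 0), (2, -3), (0, 4), (2, 3),
  (0, 4), (2, -3), (0, 4), (0, 3), (0, 4), (2, 3), (4, 0), (2, -3), (0, 4), (0, 4),
  (0, 3), (0, 4), (0, 3), (4, 0), (0, 4), (0, 3), (0, 4), (2, -3), (0, 4), (4, 0),
  (0, 4), (2, -3), (2, -3), (2, -2), (0, 4), (2, 3), (4, 0), (2, -3), (0, 4), (0, 4),
  (0, 3), (4, 0), (0, 4), (4, 0), (2, -3), (4, 0), (2, 0), (0, 4), (0, 4), (2, -3),
  (4, 0), (2, 3), (0, 4), (4, 0), (0, 4), (2, -3), (4, 0), (2, 3), (0, 4), (0, 1),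
  (2, -3), (0, 4), (0, 3), (0, 4), (2, 3), (4, 0), (2, -3), (0, 4), (0, 4), (0, 3),
  (0, 4), (0, 3), (4, 0), (0, 4), (0, 3), (0, 4), (2, -3), (4, 0), (0, 4), (0, 4),
  (2, -3), (2, -3), (2, -2), (0, 4), (2, 3), (4, 0), (2, -3), (0, 4), (0, 4), (0, 3),
  (4, 0), (0, 4), (4, 0), (0, 3), (0, 4), (0, 4), (2, -3), (4, 0), (2, 3), (0, 4),
  (4, 0), (0, 4), (2, -3), (4, 0), (2, 3), (0, 4)]

/-- Traversal steps as pairs (level, axis). -/
def travL : ℕ → List (ℕ × ℕ)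
  | 0 => []
  | (n + 1) => [(1, 0), (1, 1), (1, 0)] ++
      (travL n).flatMap (fun s => (s.1 + 1, s.2) :: [(1, 0), (1, 1), (1, 0)])

/-- A traversal step in units of `1/64`. -/
def fineStep (s : ℕ × ℕ) : ℤ × ℤ :=
  if s.2 = 0 then ((2 : ℤ) ^ (4 - s.1), 0) else (0, (2 : ℤ) ^ (4 - s.1))

/-- The coarse list in units of `1/64`. -/
def killFine : List (ℤ × ℤ) := killSeq.map (fun v => (16 * v.1, 16 * v.2))

/-- The full list, in units of `1/64`. -/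
def master : List (ℤ × ℤ) := killFine ++ (travL 4).flatMap (fun s => fineStep s :: killFine)

end Vale.Agent.Lib.P262
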