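import Vale.Agent.Lib.P262.PlanarData

/-!
Data of a second universal planar list: a list of 680 steps on the lattice of spacing
`1/5` that forces every signed walk out of a fixed board of 193 lattice points, and the list
obtained from it by interleaving with a traversal of the classes of the lattice of spacing
`1/40` modulo the lattice of spacing `1/5`.
-/

namespace Vale.Agent.Lib.P262

/-- Part 1 of the coarse list, in units of `1/5`. -/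
def killSeqB1 : List (ℤ × ℤ) := [
  (3, -4), (4, -2), (3, -4), (4, -3), (5, 0), (4, 3), (2, 3), (3, 4), (2, 4), (3, 4),
  (3, 2), (4, 3), (3, 2), (4, 3), (3, 2), (4, 3), (4, 2), (4, 3), (2, 3), (4, -3),
  (4, -2), (4, -2), (5, 0), (4, 3), (4, 3), (3, 4), (3, 4), (3, 3), (4, -3), (2, -3),
  (4, 3), (4, 2), (4, 2), (3, 4), (3, -4), (3, -3), (3, 4), (4, 2), (4, -3), (3, -4),
  (3, -4), (3, -3), (4, 3), (3, 3), (4, -3), (2, -3), (4, 3), (4, 2), (4, 2), (3, 3),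
  (3, -4), (4, -3), (4, -3), (3, -2), (3, 4), (2, 4), (4, -3), (4, -2), (4, -3), (3, -3),
  (3, 4), (4, 3), (4, 3), (3, 3), (3, -4), (3, -4), (3, 4), (4, 2), (4, 3), (3, 3),
  (3, -4), (4, -3), (4, -3), (3, -3), (3, 4), (3, 4), (3, -4), (3, 4), (4, -2), (3, 4),
  (4, -3), (3, -4), (3, 4), (3, -4), (0, 5), (4, -3), (3, -4), (4, 3), (3, 3), (3, -4),
  (4, -3), (4, -3), (3, -3), (3, 4), (3, 4), (3, -4), (3, 4), (3, -3), (2, 4), (4, -3),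
  (3, -3), (3, 4), (4, 3), (4, 3), (3, 3), (3, 4), (3, 3), (4, -3), (3, -4), (3, -4),
  (3, -3), (4, 3), (4, 3), (4, -3), (3, -4), (3, -4), (3, -3), (4, 3), (3, 4), (3, 4),
  (4, -3), (0, 5), (5, 0), (0, 5), (5, 0), (5, 0), (3, -4), (3, -4), (1, -4), (3, 4),
  (1, 4), (3, -4), (3, -4), (3, 4), (1, 4), (3, 4), (3, -4), (4, 0), (3, 4), (3, -4),
  (3, 4), (3, 4), (1, 4), (3, 4), (3, 4), (1, 4), (3, 4), (1, 4), (3, 4), (3, -4),
  (4, 0), (3, 4), (3, -4), (1, -4), (3, -4), (3, -4), (1, -4), (3, -4), (1, -4), (3, -4),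
  (3, -4), (1, -4), (1, 4), (3, 4), (4, 0), (2, 0), (3, -4), (1, -4), (5, 0), (3, -4)]

/-- Part 2 of the coarse list, in units of `1/5`. -/
def killSeqB2 : List (ℤ × ℤ) := [
  (1, -4), (3, 4), (3, -4), (2, -4), (2, -4), (1, -4), (3, 4), (3, 4), (3, -4), (1, -4),
  (3, -4), (3, 4), (1, 4), (3, -4), (3, -4), (3, 4), (1, 4), (3, 4), (3, -4), (3, 4),
  (3, 4), (1, 4), (3, -4), (3, 4), (3, -4), (1, 4), (4, 2), (5, 0), (3, -4), (1, -4),
  (3, -4), (3, 4), (1, 4), (3, -4), (3, -4), (3, 4), (3, -4), (1, -4), (3, 4), (3, 4),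
  (3, -4), (3, -4), (1, -4), (3, 4), (3, 4), (3, -4), (3, 4), (1, 4), (3, -4), (3, -4),
  (3, 4), (1, 4), (3, 4), (3, -4), (1, -4), (3, 4), (3, 4), (3, -4), (1, -4), (3, -4),
  (3, -4), (3, 4), (3, -4), (1, -4), (3, 4), (3, 4), (3, -4), (1, -4), (3, -4), (1, -4),
  (3, -4), (3, 4), (1, 4), (3, -4), (3, -4), (3, 4), (1, 4), (3, 4), (3, 4), (1, 4),
  (1, -4), (3, -4), (4, 0), (2, 0), (3, 4), (1, 4), (3, -4), (5, 0), (3, 4), (1, 4),
  (3, 4), (2, 4), (5, 0), (4, 0), (3, 4), (3, -4), (1, -4), (3, -4), (2, -4), (2, -4),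
  (3, -4), (3, 4), (3, -4), (1, -4), (3, -4), (3, 4), (2, 4), (2, 4), (1, 4), (3, -4),
  (3, 4), (3, -4), (1, -4), (3, -4), (2, -4), (3, -4), (3, 4), (5, 0), (3, -4), (3, 4),
  (5, 0), (4, -2), (3, 4), (2, 4), (1, 4), (4, 2), (3, 4), (3, -4), (2, -4), (3, -4),
  (2, -4), (3, -4), (2, -2), (3, -4), (5, 0), (3, 4), (2, 4), (3, 4), (2, 4), (3, 4),
  (2, 4), (3, 4), (2, 4), (3, 4), (3, -4), (2, -4), (3, 4), (3, 4), (3, -4), (2, -4),
  (3, 4), (2, 4), (3, -4), (3, 4), (2, -4), (3, 4), (3, -4), (2, -4), (3, -4), (2, -4),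
  (3, -4), (2, -4), (3, -4), (3, 4), (5, 0), (4, -3), (4, -3), (3, -4), (3, 4), (5, 0)]

/-- Part 3 of the coarse list, in units of `1/5`. -/
def killSeqB3 : List (ℤ × ℤ) := [
  (4, -3), (3, 4), (4, 2), (4, 3), (2, 4), (0, 5), (4, -3), (4, -2), (4, -3), (4, -1),
  (4, -3), (4, 3), (5, 0), (5, 0), (4, -3), (2, -4), (3, 4), (4, 2), (4, 2), (2, 4),
  (3, -4), (5, 0), (4, 3), (3, -4), (2, -3), (3, -4), (2, -3), (3, -4), (2, -3), (4, -3),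
  (4, -2), (4, -3), (4, -2), (4, -3), (2, -3), (3, -4), (2, -4), (3, -4), (3, -2), (3, 4),
  (0, 5), (4, -3), (4, -3), (3, -4), (3, -4), (3, -3), (3, 4), (3, 2), (3, -4), (2, -4),
  (4, 3), (4, 2), (2, -4), (4, -3), (4, 2), (3, 3), (4, -3), (2, -4), (3, 4), (3, 3),
  (3, -4), (3, -3), (3, 4), (3, 2), (3, -4), (3, -3), (4, 3), (3, 4), (3, 4), (2, 3),
  (4, -3), (4, -2), (3, 4), (2, 4), (3, 4), (3, 3), (4, -3), (3, -4), (3, -4), (3, -3),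
  (4, 3), (4, 3), (4, -3), (2, -4), (3, -4), (3, -3), (4, 3), (3, 3), (4, -3), (4, 3),
  (4, -3), (4, -3), (2, 4), (4, -3), (3, 4), (4, 3), (4, -3), (4, 3), (5, 0), (3, 4),
  (4, 3), (3, -4), (3, -3), (4, 3), (3, 4), (3, 4), (3, 3), (4, -3), (4, -3), (4, 3),
  (4, -3), (3, 3), (3, -3), (4, 3), (4, -3), (0, 5), (4, 0), (0, 5), (5, 0), (0, 4),
  (5, 0), (5, 0), (0, 5), (4, -3), (4, -3), (3, 4), (3, 4), (4, 3), (3, -3), (4, 3),
  (3, -3), (3, -3), (2, 4), (2, 4), (4, 3), (4, -3), (3, -4), (4, 3), (3, -4), (0, 5),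
  (4, -3), (3, -4), (3, -4), (2, -4), (3, -4), (4, 3), (3, 4), (3, 4), (4, -3), (4, -3),
  (3, 3), (4, -2), (4, -2), (3, 4), (0, 5), (4, 3), (3, 3), (4, -3), (3, -4), (3, 4),
  (3, -4), (3, 3), (3, -3), (3, 4), (3, -4), (3, -4), (3, -2), (0, 5), (4, -3), (3, 4)]

/-- Part 4 of the coarse list, in units of `1/5`. -/
def killSeqB4 : List (ℤ × ℤ) := [
  (4, -3), (0, 5), (3, -4), (2, -2), (3, 4), (4, -3), (0, 5), (4, 2), (2, 4), (4, 2),
  (2, 4), (3, -4), (3, 4), (4, 2), (3, -4), (4, 2), (2, 4), (4, 2), (3, -4), (3, 3),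
  (3, -4), (4, 3), (3, -4), (3, 3), (2, -2), (4, 3), (3, -4), (1, -2), (2, -4), (5, 0),
  (4, 2), (3, 4), (1, -2), (3, 4), (4, 2), (3, 4), (4, 2), (3, -4), (3, 4), (3, 4),
  (4, 2), (4, 2), (2, 4), (4, 2), (3, 4), (3, -4), (1, -2), (2, -4), (1, -2), (3, -4),
  (2, -2), (3, -4), (5, 0), (3, 4), (3, 4), (4, 2), (4, 2), (5, 0), (3, 4), (4, 2),
  (4, 2), (3, -4), (3, 4), (3, 4), (4, 2), (4, 2), (1, 4), (4, 2), (3, 4), (3, -4),
  (1, -4), (3, -4), (0, 2), (5, 0), (3, -4), (3, -4), (1, -4), (3, -4), (3, 4), (1, 4),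
  (3, -4), (3, -4), (3, 4), (1, 4), (3, 4), (3, 4), (3, -4), (3, 4), (1, 4), (3, -4),
  (3, 4), (3, -4), (1, 4), (3, 4), (3, 4), (3, -4), (3, 4), (1, 4), (3, 4), (3, -4),
  (1, -4), (3, 4), (3, 4), (3, -4), (1, -4), (3, -4), (2, -4), (3, 4), (3, 4), (1, 4),
  (3, 4), (3, -4), (1, -4), (3, 4), (3, -4), (3, 4), (1, -4), (3, -4), (3, 4), (1, 4),
  (3, 4), (1, 4), (3, 4), (3, -4), (1, -4), (3, 4), (4, -2), (4, -2), (3, -4), (3, 4),
  (1, -4), (3, -4), (4, 2), (4, 2), (3, 4), (1, 4), (0, 2), (3, 4), (5, 0), (3, -4),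
  (2, -4), (3, -4), (1, -4), (3, -4), (2, -4), (3, -4), (3, 4), (0, 4), (4, 0), (0, 4),
  (3, -4), (3, 4), (2, 4), (3, 4), (2, 4), (3, 4), (2, 4), (3, 4), (3, -4), (0, 5),
  (4, 0), (0, 5), (3, -4), (3, 4), (0, 4), (0, 4), (2, -4), (3, -4), (1, -4), (3, -4)]

/-- The coarse list, in units of `1/5`. -/
def killSeqB : List (ℤ × ℤ) := killSeqB1 ++ killSeqB2 ++ killSeqB3 ++ killSeqB4

/-- A traversal step in units of `1/40`. -/
def fineStepB (s : ℕ × ℕ) : ℤ × ℤ :=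
  if s.2 = 0 then ((2 : ℤ) ^ (3 - s.1), 0) else (0, (2 : ℤ) ^ (3 - s.1))

/-- The coarse list in units of `1/40`. -/
def killFineB : List (ℤ × ℤ) := killSeqB.map (fun v => (8 * v.1, 8 * v.2))

/-- The full list, in units of `1/40`. -/
def masterB : List (ℤ × ℤ) :=
  killFineB ++ (travL 3).flatMap (fun s => fineStepB s :: killFineB)

end Vale.Agent.Lib.P262
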