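import Vale.Agent.Lib.P262.Exits

/-!
Nesting a universal planar list along `k` orthogonal coordinate planes of `ℝ^d`.
-/

namespace Vale.Agent.Lib.P262

/-- The `i`-th coordinate of a vector of `ℝ^d`, read as `0` for `i ≥ d`. -/
noncomputable def planeNest_co {d : ℕ} (b : EuclideanSpace ℝ (Fin d)) (i : ℕ) : ℝ :=
  if h : i < d then b ⟨i, h⟩ else 0

/-- The embedding of the plane as the `j`-th coordinate plane of `ℝ^d`. -/
noncomputable def planeNest_emb (d j : ℕ) (w : ℝ × ℝ) : EuclideanSpace ℝ (Fin d) :=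
  WithLp.toLp 2
    (fun c : Fin d => if c.val = 2 * j then w.1 else if c.val = 2 * j + 1 then w.2 else 0)

/-- The nested lists. -/
noncomputable def planeNest_L (d : ℕ) (Q : List (ℝ × ℝ)) :
    ℕ → List (EuclideanSpace ℝ (Fin d))
  | 0 => []
  | n + 1 => nest (Q.map (planeNest_emb d n)) (planeNest_L d Q n)

theorem planeNest_L_zero (d : ℕ) (Q : List (ℝ × ℝ)) : planeNest_L d Q 0 = [] := rfl

theorem planeNest_L_succ (d : ℕ) (Q : List (ℝ × ℝ)) (n : ℕ) :
    planeNest_L d Q (n + 1) = nest (Q.map (planeNest_emb d n)) (planeNest_L d Q n) := rfl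

theorem planeNest_co_apply {d : ℕ} (b : EuclideanSpace ℝ (Fin d)) (c : Fin d) :
    planeNest_co b c.val = b c := by
  unfold planeNest_co
  rw [dif_pos c.isLt]

theorem planeNest_co_add {d : ℕ} (b v : EuclideanSpace ℝ (Fin d)) (i : ℕ) :
    planeNest_co (b + v) i = planeNest_co b i + planeNest_co v i := by
  unfold planeNest_co
  by_cases h : i < d
  · rw [dif_pos h, dif_pos h, dif_pos h]
    rfl
  · rw [dif_neg h, dif_neg h, dif_neg h, add_zero]

theorem planeNest_co_sub {d : ℕ} (b v : EuclideanSpace ℝ (Fin d)) (i : ℕ) :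
    planeNest_co (b - v) i = planeNest_co b i - planeNest_co v i := by
  unfold planeNest_co
  by_cases h : i < d
  · rw [dif_pos h, dif_pos h, dif_pos h]
    rfl
  · rw [dif_neg h, dif_neg h, dif_neg h, sub_zero]

theorem planeNest_co_emb (d j : ℕ) (w : ℝ × ℝ) (i : ℕ) (hi : i < d) :
    planeNest_co (planeNest_emb d j w) i =
      if i = 2 * j then w.1 else if i = 2 * j + 1 then w.2 else 0 := by
  unfold planeNest_co
  rw [dif_pos hi]
  rfl

theorem planeNest_norm_sq {d : ℕ} (b : EuclideanSpace ℝ (Fin d)) :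
    ‖b‖ ^ 2 = ∑ i ∈ Finset.range d, (planeNest_co b i) ^ 2 := by
  rw [EuclideanSpace.norm_sq_eq, ← Fin.sum_univ_eq_sum_range (fun i => (planeNest_co b i) ^ 2) d]
  refine Finset.sum_congr rfl fun c _ => ?_
  rw [planeNest_co_apply, Real.norm_eq_abs, sq_abs]

theorem planeNest_emb_norm (d j : ℕ) (w : ℝ × ℝ) (hw : w.1 ^ 2 + w.2 ^ 2 ≤ 1) :
    ‖planeNest_emb d j w‖ ≤ 1 := by
  have h1 : ‖planeNest_emb d j w‖ ^ 2 ≤ 1 := by
    rw [planeNest_norm_sq]
    have e : ∀ i ∈ Finset.range d, (planeNest_co (planeNest_emb d j w) i) ^ 2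
        = (if i = 2 * j then w.1 ^ 2 else 0) + (if i = 2 * j + 1 then w.2 ^ 2 else 0) := by
      intro i hi
      rw [planeNest_co_emb d j w i (Finset.mem_range.mp hi)]
      by_cases h1 : i = 2 * j
      · have h2 : ¬ i = 2 * j + 1 := by omega
        rw [if_pos h1, if_pos h1, if_neg h2, add_zero]
      · by_cases h2 : i = 2 * j + 1
        · rw [if_neg h1, if_pos h2, if_neg h1, if_pos h2, zero_add]
        · rw [if_neg h1, if_neg h2, if_neg h1, if_neg h2]
          norm_num
    rw [Finset.sum_congr rfl e, Finset.sum_add_distrib,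
      Finset.sum_ite_eq' (Finset.range d) (2 * j) (fun _ => w.1 ^ 2),
      Finset.sum_ite_eq' (Finset.range d) (2 * j + 1) (fun _ => w.2 ^ 2)]
    have a1 : (if 2 * j ∈ Finset.range d then w.1 ^ 2 else 0) ≤ w.1 ^ 2 := by
      split_ifs
      · exact le_rfl
      · positivity
    have a2 : (if 2 * j + 1 ∈ Finset.range d then w.2 ^ 2 else 0) ≤ w.2 ^ 2 := by
      split_ifs
      · exact le_rfl
      · positivity
    linarith
  by_contra hcon
  have h2 : 1 < ‖planeNest_emb d j w‖ := not_le.mp hcon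
  nlinarith

theorem planeNest_mem_nest {E : Type*} [AddCommGroup E] (Q' I : List E) (v : E)
    (hv : v ∈ nest Q' I) : v ∈ I ∨ v ∈ Q' := by
  unfold nest at hv
  rw [List.mem_append, List.mem_flatMap] at hv
  rcases hv with h | ⟨w, hw, h⟩
  · exact Or.inl h
  · rcases List.mem_cons.mp h with h | h
    · rw [h]
      exact Or.inr hw
    · exact Or.inl h

theorem planeNest_L_props (d : ℕ) (Q : List (ℝ × ℝ)) (hQ : ∀ w ∈ Q, w.1 ^ 2 + w.2 ^ 2 ≤ 1) :
    ∀ n, ∀ v ∈ planeNest_L d Q n, ‖v‖ ≤ 1 ∧ ∀ i, 2 * n ≤ i → planeNest_co v i = 0 := by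
  intro n
  induction n with
  | zero =>
    intro v hv
    rw [planeNest_L_zero] at hv
    exact absurd hv List.not_mem_nil
  | succ n ih =>
    intro v hv
    rw [planeNest_L_succ] at hv
    rcases planeNest_mem_nest _ _ v hv with h | h
    · exact ⟨(ih v h).1, fun i hi => (ih v h).2 i (by omega)⟩
    · obtain ⟨w, hw, rfl⟩ := List.mem_map.mp h
      refine ⟨planeNest_emb_norm d n w (hQ w hw), fun i hi => ?_⟩
      by_cases hid : i < d
      · rw [planeNest_co_emb d n w i hid, if_neg (by omega), if_neg (by omega)]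
      · unfold planeNest_co
        rw [dif_neg hid]

theorem planeNest_exits_map (ρsq : ℝ) (d n : ℕ) (hn : 2 * n + 1 < d) :
    ∀ (Q' : List (ℝ × ℝ)) (a : EuclideanSpace ℝ (Fin d)),
      Exits (fun b : ℝ × ℝ => ρsq < b.1 ^ 2 + b.2 ^ 2)
        (planeNest_co a (2 * n), planeNest_co a (2 * n + 1)) Q' →
      Exits (fun b : EuclideanSpace ℝ (Fin d) =>
        ρsq < planeNest_co b (2 * n) ^ 2 + planeNest_co b (2 * n + 1) ^ 2) a
        (Q'.map (planeNest_emb d n)) := by
  intro Q'
  induction Q' with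
  | nil =>
    intro a h
    exact h
  | cons w Q' ih =>
    intro a h
    have e1 : planeNest_co (planeNest_emb d n w) (2 * n) = w.1 := by
      rw [planeNest_co_emb d n w (2 * n) (by omega), if_pos rfl]
    have e2 : planeNest_co (planeNest_emb d n w) (2 * n + 1) = w.2 := by
      rw [planeNest_co_emb d n w (2 * n + 1) hn, if_neg (by omega), if_pos rfl]
    rw [List.map_cons]
    rcases h with h | ⟨h1, h2⟩
    · exact Or.inl h
    · refine Or.inr ⟨ih _ ?_, ih _ ?_⟩
      · rw [planeNest_co_add, planeNest_co_add, e1, e2]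
        exact h1
      · rw [planeNest_co_sub, planeNest_co_sub, e1, e2]
        exact h2

theorem planeNest_exits (ρsq : ℝ) (d : ℕ) (Q : List (ℝ × ℝ))
    (hQ : ∀ w ∈ Q, w.1 ^ 2 + w.2 ^ 2 ≤ 1)
    (hU : ∀ a : ℝ × ℝ, Exits (fun b : ℝ × ℝ => ρsq < b.1 ^ 2 + b.2 ^ 2) a Q) :
    ∀ n, 2 * n ≤ d → ∀ a : EuclideanSpace ℝ (Fin d),
      Exits (fun b : EuclideanSpace ℝ (Fin d) => ∀ j, j < n →
        ρsq < planeNest_co b (2 * j) ^ 2 + planeNest_co b (2 * j + 1) ^ 2) a
        (planeNest_L d Q n) := by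
  intro n
  induction n with
  | zero =>
    intro _ a
    rw [planeNest_L_zero]
    show ∀ j, j < 0 → ρsq < planeNest_co a (2 * j) ^ 2 + planeNest_co a (2 * j + 1) ^ 2
    intro j hj
    exact absurd hj (Nat.not_lt_zero j)
  | succ n ih =>
    intro hn a
    have ih' := ih (by omega)
    have h1 : Exits (fun b : EuclideanSpace ℝ (Fin d) =>
        ρsq < planeNest_co b (2 * n) ^ 2 + planeNest_co b (2 * n + 1) ^ 2) a
        (Q.map (planeNest_emb d n)) :=
      planeNest_exits_map ρsq d n (by omega) Q a (hU _)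
    have hinv : ∀ v ∈ planeNest_L d Q n, ∀ b : EuclideanSpace ℝ (Fin d),
        ((ρsq < planeNest_co (b + v) (2 * n) ^ 2 + planeNest_co (b + v) (2 * n + 1) ^ 2) ↔
          (ρsq < planeNest_co b (2 * n) ^ 2 + planeNest_co b (2 * n + 1) ^ 2)) ∧
        ((ρsq < planeNest_co (b - v) (2 * n) ^ 2 + planeNest_co (b - v) (2 * n + 1) ^ 2) ↔
          (ρsq < planeNest_co b (2 * n) ^ 2 + planeNest_co b (2 * n + 1) ^ 2)) := by
      intro v hv b
      have z1 := (planeNest_L_props d Q hQ n v hv).2 (2 * n) le_rfl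
      have z2 := (planeNest_L_props d Q hQ n v hv).2 (2 * n + 1) (by omega)
      have e1 : planeNest_co (b + v) (2 * n) = planeNest_co b (2 * n) := by
        rw [planeNest_co_add, z1, add_zero]
      have e2 : planeNest_co (b + v) (2 * n + 1) = planeNest_co b (2 * n + 1) := by
        rw [planeNest_co_add, z2, add_zero]
      have e3 : planeNest_co (b - v) (2 * n) = planeNest_co b (2 * n) := by
        rw [planeNest_co_sub, z1, sub_zero]
      have e4 : planeNest_co (b - v) (2 * n + 1) = planeNest_co b (2 * n + 1) := by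
        rw [planeNest_co_sub, z2, sub_zero]
      rw [e1, e2, e3, e4]
      exact ⟨Iff.rfl, Iff.rfl⟩
    have h2 := exits_nest (P1 := fun b : EuclideanSpace ℝ (Fin d) =>
        ρsq < planeNest_co b (2 * n) ^ 2 + planeNest_co b (2 * n + 1) ^ 2)
      (P2 := fun b : EuclideanSpace ℝ (Fin d) => ∀ j, j < n →
        ρsq < planeNest_co b (2 * j) ^ 2 + planeNest_co b (2 * j + 1) ^ 2)
      (planeNest_L d Q n) hinv ih' (Q.map (planeNest_emb d n)) a h1
    rw [planeNest_L_succ]
    refine exits_mono ?_ _ a h2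
    intro b hb j hj
    rcases Nat.lt_succ_iff_lt_or_eq.mp hj with h | h
    · exact hb.2 j h
    · rw [h]
      exact hb.1

theorem planeNest_sum_ge (ρsq : ℝ) (g : ℕ → ℝ) :
    ∀ k : ℕ, (∀ j, j < k → ρsq < g (2 * j) + g (2 * j + 1)) →
      ρsq * k ≤ ∑ i ∈ Finset.range (2 * k), g i := by
  intro k
  induction k with
  | zero =>
    intro _
    simp
  | succ k ih =>
    intro h
    have h1 := ih (fun j hj => h j (Nat.lt_succ_of_lt hj))
    have h2 := h k (Nat.lt_succ_self k)
    have e : 2 * (k + 1) = 2 * k + 1 + 1 := by ring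
    rw [e, Finset.sum_range_succ, Finset.sum_range_succ]
    push_cast
    linarith

/-- If from every starting point of the plane every signing of `Q` reaches squared norm greater
than `ρsq`, then there is a list of vectors of `ℝ^d`, supported on the first `2 * k`
coordinates and of norm at most one, every signing of which (started at `0`) reaches squared
norm at least `ρsq * k`. -/
theorem exits_of_planar (ρsq : ℝ) (Q : List (ℝ × ℝ))
    (hQ : ∀ w ∈ Q, w.1 ^ 2 + w.2 ^ 2 ≤ 1)
    (hU : ∀ a : ℝ × ℝ, Exits (fun b : ℝ × ℝ => ρsq < b.1 ^ 2 + b.2 ^ 2) a Q)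
    (d k : ℕ) (hk : 2 * k ≤ d) :
    ∃ l : List (EuclideanSpace ℝ (Fin d)), (∀ v ∈ l, ‖v‖ ≤ 1) ∧
      (∀ v ∈ l, ∀ c : Fin d, 2 * k ≤ c.val → v c = 0) ∧
      Exits (fun b : EuclideanSpace ℝ (Fin d) => ρsq * k ≤ ‖b‖ ^ 2) 0 l := by
  refine ⟨planeNest_L d Q k, fun v hv => (planeNest_L_props d Q hQ k v hv).1,
    fun v hv c hc => ?_, ?_⟩
  · rw [← planeNest_co_apply v c]
    exact (planeNest_L_props d Q hQ k v hv).2 c.val hc
  · refine exits_mono ?_ _ 0 (planeNest_exits ρsq d Q hQ hU k hk 0)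
    intro b hb
    rw [planeNest_norm_sq]
    have h1 := planeNest_sum_ge ρsq (fun i => planeNest_co b i ^ 2) k hb
    have h2 : ∑ i ∈ Finset.range (2 * k), planeNest_co b i ^ 2
        ≤ ∑ i ∈ Finset.range d, planeNest_co b i ^ 2 :=
      Finset.sum_le_sum_of_subset_of_nonneg (Finset.range_mono hk) (fun i _ _ => sq_nonneg _)
    linarith

end Vale.Agent.Lib.P262
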